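import Vale.Agent.P101.ZStab.Flip.Edge

/-!
# P101 `Z`-stability: from the filled square to almost flipped copies (helper file of `ZStab/Flip`)

The unitary is the filled square conjugated by the paths of the connecting map; on flattened test
functions the square intertwines the two copies almost exactly.
-/

open scoped Kronecker Matrix.Norms.L2Operator
open Matrix

namespace Vale.P101.ZS.Fl

noncomputable section

/-- A square of banded intertwiners with sides in the small algebras (module `ZStab/Flip/Square`). -/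
def SquareStmt : Prop :=
  IntConnStmt → ∀ {p l : ℕ} (hp : 0 < p) (_ : SmallEnds p l hp) (σ : Pos₀ p l ≃ Pos₁ p l) (δ : ℝ),
    δ = 3 / ((l : ℝ) + 1) → (∀ i, |lab₀ p l i - lab₁ p l (σ i)| ≤ δ) → 2000000 * δ ≤ 1 →
    ∃ Γ : C(II × II, Matrix (NX p l) (NX p l) ℂ),
      (∀ x, Γ x ∈ unitary (Matrix (NX p l) (NX p l) ℂ)) ∧
      (∀ x, IntR (fun g => pl (xcd p l) (rep₀ p l g)) (fun g => pl (xab p l) (rep₀ p l g))
        (150000 * δ) (150000 * δ) (Γ x)) ∧
      (∀ t, ∃ W, Γ (0, t) = gL W) ∧ (∀ t, ∃ W, Γ (1, t) = gR σ W) ∧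
      (∀ s, ∃ W, Γ (s, 0) = gB W) ∧ (∀ s, ∃ W, Γ (s, 1) = gT σ W)

section homs

variable {n m X : Type*} [Fintype n] [DecidableEq n] [Fintype m] [DecidableEq m] [Fintype X]
  [DecidableEq X]

/-- Placing on a tensor factor, as a homomorphism. -/
def plHom (e : n ≃ m × X) : Matrix m m ℂ →⋆ₙₐ[ℂ] Matrix n n ℂ where
  toFun A := pl e A
  map_smul' c A := by ext x y; simp [pl, mul_assoc]
  map_zero' := pl_zero e
  map_add' A B := by ext x y; simp [pl, add_mul]
  map_mul' A B := pl_mul e A B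
  map_star' A := pl_star e A

omit [DecidableEq n] [DecidableEq m] in
theorem pl_sub (e : n ≃ m × X) (A B : Matrix m m ℂ) : pl e (A - B) = pl e A - pl e B := by
  ext x y; simp [pl, sub_mul]

theorem norm_pl_le (e : n ≃ m × X) (A : Matrix m m ℂ) : ‖pl e A‖ ≤ ‖A‖ :=
  NonUnitalStarAlgHom.norm_apply_le (plHom e) A

/-- Reindexing, as a homomorphism. -/
def subHom (e : n ≃ m) : Matrix m m ℂ →⋆ₙₐ[ℂ] Matrix n n ℂ where
  toFun A := A.submatrix e e
  map_smul' c A := rfl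
  map_zero' := rfl
  map_add' A B := rfl
  map_mul' A B := (Matrix.submatrix_mul_equiv A B _ _ _).symm
  map_star' A := rfl

theorem norm_sub_le' (e : n ≃ m) (A : Matrix m m ℂ) : ‖A.submatrix e e‖ ≤ ‖A‖ :=
  NonUnitalStarAlgHom.norm_apply_le (subHom e) A

omit [DecidableEq n] in
/-- The complementary factor commutes. -/
theorem commute_pl_right (e : n ≃ m × X) (A : Matrix m m ℂ) (E : Matrix X X ℂ) :
    Commute (pl e A) (((1 : Matrix m m ℂ) ⊗ₖ E).submatrix e e) := by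
  rw [Commute, SemiconjBy, pl, Matrix.submatrix_mul_equiv, Matrix.submatrix_mul_equiv,
    ← Matrix.mul_kronecker_mul, ← Matrix.mul_kronecker_mul, one_mul, mul_one, one_mul, mul_one]

omit [DecidableEq n] in
theorem commute_conj {A C Y : Matrix n n ℂ} (hA : Commute A C) (hA' : Commute (star A) C)
    (hY : Commute Y C) : Commute (A * Y * star A) C :=
  (hA.mul_left hY).mul_left hA'

end homs

variable {p : ℕ} {J : Type*} [Fintype J] [DecidableEq J]

/-- Block diagonals of close functions are close. -/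
theorem norm_dg_sub_le {f g : ℝ → Mat p (p + 1)} {a b : J → ℝ} {ε : ℝ} (hε : 0 ≤ ε)
    (h : ∀ i, ‖f (a i) - g (b i)‖ ≤ ε) : ‖dg f a - dg g b‖ ≤ ε := by
  have e : dg f a - dg g b = dgHom p J fun i => f (a i) - g (b i) := by
    ext x y
    show _ = if x.1 = y.1 then _ else 0
    simp only [Matrix.sub_apply, dg]
    split_ifs with h1
    · rw [h1]
    · exact sub_zero 0
  rw [e]
  exact (NonUnitalStarAlgHom.norm_apply_le (dgHom p J) _).trans
    ((pi_norm_le_iff_of_nonneg hε).2 h)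

/-- A function on the interval, flattened near the ends. -/
def flat (η : ℝ) (f : DD p (p + 1)) (x : ℝ) : Mat p (p + 1) :=
  f.1 (Set.projIcc (0 : ℝ) 1 zero_le_one ((x - 3 * η) / (1 - 6 * η)))

theorem flat_low {η : ℝ} (hη : 10 * η ≤ 1) (f : DD p (p + 1)) {x : ℝ} (hx : x ≤ 3 * η) :
    ∃ A : Matrix (Fin p) (Fin p) ℂ,
      flat η f x = A ⊗ₖ (1 : Matrix (Fin (p + 1)) (Fin (p + 1)) ℂ) := by
  obtain ⟨A, hA⟩ := f.2.1
  refine ⟨A, ?_⟩
  rw [flat, Set.projIcc_of_le_left zero_le_one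
    (div_nonpos_iff.2 (Or.inr ⟨by linarith, by linarith⟩))]
  exact hA

theorem flat_high {η : ℝ} (hη : 10 * η ≤ 1) (f : DD p (p + 1)) {x : ℝ} (hx : 1 - 3 * η ≤ x) :
    ∃ B : Matrix (Fin (p + 1)) (Fin (p + 1)) ℂ,
      flat η f x = (1 : Matrix (Fin p) (Fin p) ℂ) ⊗ₖ B := by
  obtain ⟨B, hB⟩ := f.2.2
  refine ⟨B, ?_⟩
  rw [flat, Set.projIcc_of_right_le zero_le_one ((le_div_iff₀ (by linarith)).2 (by linarith))]
  exact hB

theorem abs_proj_le (x y : ℝ) :
    |((Set.projIcc (0 : ℝ) 1 zero_le_one x : II) : ℝ) - (Set.projIcc (0 : ℝ) 1 zero_le_one y : II)|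
      ≤ |x - y| :=
  LipschitzWith.dist_le_mul (LipschitzWith.projIcc zero_le_one) x y |>.trans
    (le_of_eq (by simp [Real.dist_eq]))

theorem flat_modulus {η d r ε : ℝ} (hη : 10 * η ≤ 1) (f : DD p (p + 1))
    (hf : ∀ s t : II, |(s : ℝ) - t| ≤ r → ‖f.1 s - f.1 t‖ ≤ ε) (hd : 10 * d ≤ r) (x y : ℝ)
    (hxy : |x - y| ≤ 3 * d) : ‖flat η f x - flat η f y‖ ≤ ε := by
  refine hf _ _ ((abs_proj_le _ _).trans ?_)
  rw [← sub_div, sub_sub_sub_cancel_right, abs_div, abs_of_pos (a := 1 - 6 * η) (by linarith),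
    div_le_iff₀ (by linarith)]
  nlinarith [abs_nonneg (x - y), mul_le_mul_of_nonneg_left (show (2 : ℝ) / 5 ≤ 1 - 6 * η by linarith)
    (show 0 ≤ r by linarith [abs_nonneg (x - y)])]

theorem flat_near {η r ε : ℝ} (hη0 : 0 ≤ η) (hη : 10 * η ≤ 1) (f : DD p (p + 1))
    (hf : ∀ s t : II, |(s : ℝ) - t| ≤ r → ‖f.1 s - f.1 t‖ ≤ ε) (hd : 10 * η ≤ r) (x : II) :
    ‖flat η f x - f.1 x‖ ≤ ε := by
  refine hf _ _ ?_
  have h2 := abs_proj_le (((x : ℝ) - 3 * η) / (1 - 6 * η)) (x : ℝ)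
  rw [Set.projIcc_val zero_le_one x] at h2
  refine h2.trans ?_
  have h6 : (0 : ℝ) < 1 - 6 * η := by linarith
  have e : ((x : ℝ) - 3 * η) / (1 - 6 * η) - x = (6 * η * x - 3 * η) / (1 - 6 * η) := by
    rw [eq_div_iff h6.ne', sub_mul, div_mul_cancel₀ _ h6.ne']
    ring
  rw [e, abs_div, abs_of_pos h6, div_le_iff₀ h6, abs_le]
  constructor <;> nlinarith [x.2.1, x.2.2, mul_le_mul_of_nonneg_left x.2.2 hη0,
    mul_nonneg hη0 x.2.1, mul_le_mul_of_nonneg_left (show (2 : ℝ) / 5 ≤ 1 - 6 * η by linarith)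
      (show 0 ≤ r by linarith)]

section factors

variable {p l : ℕ}

theorem eq_pl_xcd (E : Matrix (Out p l) (Out p l) ℂ) :
    (1 : Matrix (Out p l) (Out p l) ℂ) ⊗ₖ E = pl (xcd p l) E := by
  ext x y
  simp [pl, xcd, Matrix.one_apply]

theorem factor_iL (E : Matrix (IQ p l) (IQ p l) ℂ) :
    ((1 : Matrix (IP p l) (IP p l) ℂ) ⊗ₖ E) ⊗ₖ (1 : Matrix (Out p l) (Out p l) ℂ) =
      ((1 : Matrix (NL p l) (NL p l) ℂ) ⊗ₖ E).submatrix (iL p l) (iL p l) := by
  ext x y
  simp only [iL, Matrix.submatrix_apply, Matrix.kroneckerMap_apply, Matrix.one_apply,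
    Equiv.coe_fn_mk, Prod.ext_iff]
  split_ifs <;> simp_all

theorem factor_iR (E : Matrix (IP p l) (IP p l) ℂ) :
    (E ⊗ₖ (1 : Matrix (IQ p l) (IQ p l) ℂ)) ⊗ₖ (1 : Matrix (Out p l) (Out p l) ℂ) =
      ((1 : Matrix (NR p l) (NR p l) ℂ) ⊗ₖ E).submatrix (iR p l) (iR p l) := by
  ext x y
  simp only [iR, Matrix.submatrix_apply, Matrix.kroneckerMap_apply, Matrix.one_apply,
    Equiv.coe_fn_mk, Prod.ext_iff]
  split_ifs <;> simp_all

theorem factor_iB (E : Matrix (IQ p l) (IQ p l) ℂ) :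
    pl (xcd p l) ((1 : Matrix (IP p l) (IP p l) ℂ) ⊗ₖ E) =
      ((1 : Matrix (NB p l) (NB p l) ℂ) ⊗ₖ E).submatrix (iB p l) (iB p l) := by
  ext x y
  simp only [pl, xcd, iB, Matrix.submatrix_apply, Matrix.kroneckerMap_apply, Matrix.one_apply,
    Equiv.prodComm_apply, Prod.fst_swap, Prod.snd_swap, Equiv.coe_fn_mk, Prod.ext_iff]
  split_ifs <;> simp_all

theorem factor_iT (E : Matrix (IP p l) (IP p l) ℂ) :
    pl (xcd p l) (E ⊗ₖ (1 : Matrix (IQ p l) (IQ p l) ℂ)) =
      ((1 : Matrix (NT p l) (NT p l) ℂ) ⊗ₖ E).submatrix (iT p l) (iT p l) := by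
  ext x y
  simp only [pl, xcd, iT, Matrix.submatrix_apply, Matrix.kroneckerMap_apply, Matrix.one_apply,
    Equiv.prodComm_apply, Prod.fst_swap, Prod.snd_swap, Equiv.coe_fn_mk, Prod.ext_iff]
  split_ifs <;> simp_all

variable (σ : Pos₀ p l ≃ Pos₁ p l)

/-- The inner conjugation at `s = 1`. -/
theorem unwind_R (C : Matrix (NX p l) (NX p l) ℂ) (W : Matrix (NR p l) (NR p l) ℂ)
    (hC : Commute (pm (cj (xab p l) (te σ))) C) :
    pm (cj (xab p l) (te σ)) * C * gR σ W * star (pm (cj (xab p l) (te σ)) * C) =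
      C * pl (iR p l) W * star C := by
  have h2 : pm (cj (xab p l) (te σ)) * pm (cj (xab p l) (te σ).symm) = 1 := by
    rw [pm_trans, ← cj_symm, Equiv.self_trans_symm, pm_refl]
  rw [hC.eq, star_mul, pm_star, gR, cj_symm]
  simp only [mul_assoc]
  rw [← mul_assoc (pm (cj (xab p l) (te σ))) (pm (cj (xab p l) (te σ).symm)), h2, one_mul,
    ← mul_assoc (pm (cj (xab p l) (te σ))) (pm (cj (xab p l) (te σ).symm)), h2, one_mul]

/-- The inner conjugation at `t = 1`. -/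
theorem unwind_T (C : Matrix (NX p l) (NX p l) ℂ) (W : Matrix (NT p l) (NT p l) ℂ) :
    C * pm (cj (xcd p l) (te σ)) * gT σ W * star (C * pm (cj (xcd p l) (te σ))) =
      C * pl (iT p l) W * star C := by
  have h2 : pm (cj (xcd p l) (te σ)) * pm (cj (xcd p l) (te σ).symm) = 1 := by
    rw [pm_trans, ← cj_symm, Equiv.self_trans_symm, pm_refl]
  rw [star_mul, pm_star, gT, cj_symm]
  simp only [mul_assoc]
  rw [← mul_assoc (pm (cj (xcd p l) (te σ))) (pm (cj (xcd p l) (te σ).symm)), h2, one_mul,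
    ← mul_assoc (pm (cj (xcd p l) (te σ))) (pm (cj (xcd p l) (te σ).symm)), h2, one_mul]

/-- The conjugated square lies in the tensor square of the stage. -/
theorem mem_DD2 {U : C(II, Matrix (Out p l) (Out p l) ℂ)} (hU0 : U 0 = 1) (hU1 : U 1 = tau σ)
    {Γ : II × II → Matrix (NX p l) (NX p l) ℂ} (hΓL : ∀ t, ∃ W, Γ (0, t) = gL W)
    (hΓR : ∀ t, ∃ W, Γ (1, t) = gR σ W) (hΓB : ∀ s, ∃ W, Γ (s, 0) = gB W)
    (hΓT : ∀ s, ∃ W, Γ (s, 1) = gT σ W) (u : C(II × II, Mat2 (nextP p l) (nextP p l + 1)))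
    (hu : ∀ x, u x = pl (xab p l) (U x.1) * pl (xcd p l) (U x.2) * Γ x *
      star (pl (xab p l) (U x.1) * pl (xcd p l) (U x.2))) :
    u ∈ DD2 (nextP p l) (nextP p l + 1) := by
  have hsR : ∀ (A : Matrix (Out p l) (Out p l) ℂ) B,
      Commute (star (pl (xcd p l) A)) (pl (xab p l) B) := fun A B => by
    rw [← pl_star]; exact (xab_comm_xcd B (star A)).symm
  have hsT : ∀ (A : Matrix (Out p l) (Out p l) ℂ) B,
      Commute (star (pl (xab p l) A)) (pl (xcd p l) B) := fun A B => by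
    rw [← pl_star]; exact xab_comm_xcd (star A) B
  refine ⟨fun t E => ?_, fun t E => ?_, fun s E => ?_, fun s E => ?_⟩ <;> rw [hu]
  · obtain ⟨W, hW⟩ := hΓL t
    rw [hU0, pl_one, one_mul, hW]
    refine commute_conj (xab_comm_xcd _ _).symm (hsR _ _) ?_
    rw [factor_iL]
    exact commute_pl_right _ W E
  · obtain ⟨W, hW⟩ := hΓR t
    rw [hU1, tau_eq, pl_pm', hW, unwind_R σ _ _ (by rw [← pl_pm']; exact xab_comm_xcd _ _)]
    refine commute_conj (xab_comm_xcd _ _).symm (hsR _ _) ?_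
    rw [factor_iR]
    exact commute_pl_right _ W E
  · obtain ⟨W, hW⟩ := hΓB s
    rw [hU0, pl_one, mul_one, hW, eq_pl_xcd]
    refine commute_conj (xab_comm_xcd _ _) (hsT _ _) ?_
    rw [factor_iB]
    exact commute_pl_right _ W E
  · obtain ⟨W, hW⟩ := hΓT s
    rw [hU1, tau_eq, pl_pm', hW, unwind_T, eq_pl_xcd]
    refine commute_conj (xab_comm_xcd _ _) (hsT _ _) ?_
    rw [factor_iT]
    exact commute_pl_right _ W E

end factors

/-- Intertwiners almost intertwine flattened functions. -/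
theorem norm_intertwine_le (intN : IntNormStmt) {l : ℕ} (hp : 0 < p) (hl : 0 < l) {η ε : ℝ}
    (hη : 0 < η) (hη1 : 10 * η ≤ 1) (hε : 0 ≤ ε) {g : ℝ → Mat p (p + 1)}
    (hmod : ∀ x y, |x - y| ≤ 3 * η → ‖g x - g y‖ ≤ ε)
    (hlow : ∀ x ≤ 3 * η, ∃ A : Matrix (Fin p) (Fin p) ℂ,
      g x = A ⊗ₖ (1 : Matrix (Fin (p + 1)) (Fin (p + 1)) ℂ))
    (hhigh : ∀ x, 1 - 3 * η ≤ x → ∃ B : Matrix (Fin (p + 1)) (Fin (p + 1)) ℂ,
      g x = (1 : Matrix (Fin p) (Fin p) ℂ) ⊗ₖ B)
    {G : Matrix (NX p l) (NX p l) ℂ} (hG : G ∈ unitary (Matrix (NX p l) (NX p l) ℂ))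
    (hI : IntR (fun g => pl (xcd p l) (rep₀ p l g)) (fun g => pl (xab p l) (rep₀ p l g)) η η G) :
    ‖G * pl (xab p l) (rep₀ p l g) - pl (xcd p l) (rep₀ p l g) * G‖ ≤ 10 * ε := by
  have hlab : ∀ i, 0 ≤ lab₀ p l i ∧ lab₀ p l i ≤ 1 := (spread_lab₀ p l hl).mem
  have h1 := hI.exact_mul hη (by linarith) (V := fl p l)
    (σ' := fun g => pl (xab p l) (rep₀ p l g)) fun g _ => swap_pl _ _ _
  rw [show (fun g => pl (xab p l) (rep₀ p l g)) = fr (fX p l) (fun j => lab₀ p l j.1) from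
    funext fun g => (fr_fX g).symm, intR_fr_iff] at h1
  have h2 := intN p _ _ _ _ _ ε g _ hp hη hε le_rfl hη1
    (fun j => ⟨(hlab j.1).1, (hlab j.1).2, (hlab j.1).1, (hlab j.1).2⟩)
    hmod hlow hhigh (re_unitary (fX p l) (mul_mem (pm_mem _) hG)) h1
  have e : fl p l * (G * pl (xab p l) (rep₀ p l g) - pl (xcd p l) (rep₀ p l g) * G) =
      (re (fX p l) (fl p l * G) * dg g (fun j : Pos₀ p l × Out p l => lab₀ p l j.1) -
        dg g (fun j : Pos₀ p l × Out p l => lab₀ p l j.1) *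
          re (fX p l) (fl p l * G)).submatrix (fX p l) (fX p l) := by
    rw [Matrix.submatrix_sub]
    simp only [re, Pi.sub_apply, ← Matrix.submatrix_mul_equiv _ _ _ (fX p l),
      Matrix.submatrix_submatrix, Equiv.symm_comp_self, Matrix.submatrix_id_id]
    rw [show (dg g fun j : Pos₀ p l × Out p l => lab₀ p l j.1).submatrix (fX p l) (fX p l) =
        pl (xab p l) (rep₀ p l g) from fr_fX g, mul_sub, ← mul_assoc, ← mul_assoc,
      show fl p l * pl (xcd p l) (rep₀ p l g) = pl (xab p l) (rep₀ p l g) * fl p l from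
        (swap_pl _ _ _).symm, mul_assoc _ (fl p l)]
  rw [← CStarRing.norm_mem_unitary_mul _ (show fl p l ∈ unitary _ from pm_mem _), e]
  exact (norm_sub_le' _ _).trans h2

/-- The conjugated comparison. -/
theorem norm_flip_le {Z : Type*} [CStarAlgebra Z] {V G A B A₀ B₀ : Z} {ε : ℝ} (hV : V ∈ unitary Z)
    (hG : G ∈ unitary Z) (h1 : ‖A - A₀‖ ≤ ε) (h2 : ‖G * A₀ - B₀ * G‖ ≤ 5 * ε)
    (h3 : ‖B - B₀‖ ≤ ε) :
    ‖V * G * star V * (V * A * star V) * star (V * G * star V) - V * B * star V‖ ≤ 7 * ε := by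
  have hVV := Unitary.star_mul_self_of_mem hV
  have hGG := Unitary.mul_star_self_of_mem hG
  rw [show V * G * star V * (V * A * star V) * star (V * G * star V) - V * B * star V =
      V * (G * A * star G - B) * star V by
      simp only [star_mul, star_star, mul_sub, sub_mul, mul_assoc]
      simp only [← mul_assoc (star V) V, hVV, one_mul],
    CStarRing.norm_mul_mem_unitary _ (Unitary.star_mem hV), CStarRing.norm_mem_unitary_mul _ hV,
    show G * A * star G - B = G * (A - A₀) * star G + (G * A₀ - B₀ * G) * star G + (B₀ - B) by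
      simp only [mul_sub, sub_mul, mul_assoc, hGG, mul_one]; abel]
  refine (norm_add₃_le).trans ?_
  rw [CStarRing.norm_mul_mem_unitary _ (Unitary.star_mem hG),
    CStarRing.norm_mul_mem_unitary _ (Unitary.star_mem hG),
    CStarRing.norm_mem_unitary_mul _ hG, norm_sub_rev B₀ B]
  linarith

/-- Connecting maps have almost flipped tensor copies. -/
theorem flip_of_square (hSq : SquareStmt) (intN : IntNormStmt) (hC : IntConnStmt)
    (hS : StepMapStmt) : FlipStmt := by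
  classical
  intro p hp F ε hε
  have hp0 : 0 < p := by omega
  -- a common modulus of continuity
  obtain ⟨r, hr0, hr⟩ : ∃ r > 0, ∀ f ∈ F, ∀ s t : II, |(s : ℝ) - t| ≤ r →
      ‖(f : DD p (p + 1)).1 s - f.1 t‖ ≤ ε / 20 := by
    have h : ∀ f : DD p (p + 1), ∀ᶠ r in nhdsWithin (0 : ℝ) (Set.Ioi 0),
        ∀ s t : II, |(s : ℝ) - t| ≤ r → ‖f.1 s - f.1 t‖ ≤ ε / 20 := fun f => by
      obtain ⟨r, hr, h⟩ := Metric.uniformContinuous_iff.1
        (CompactSpace.uniformContinuous_of_continuous f.1.continuous) (ε / 20) (by linarith)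
      filter_upwards [Ioo_mem_nhdsGT hr] with r' hr' s t hst
      rw [← dist_eq_norm]
      refine (h (a := s) (b := t) ?_).le
      rw [Subtype.dist_eq, Real.dist_eq]
      exact lt_of_le_of_lt hst hr'.2
    obtain ⟨r, hr, hr'⟩ := (((Filter.eventually_all_finset F).2 fun f _ => h f).and
      self_mem_nhdsWithin).exists
    exact ⟨r, hr', hr⟩
  obtain ⟨L, hL⟩ := exists_nat_ge (9000000 / min r 1)
  refine ⟨L + 1, fun l hl σ U φ hσ => ?_⟩
  have hm : 0 < min r 1 := lt_min hr0 one_pos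
  set δ : ℝ := 3 / ((l : ℝ) + 1) with hδdef
  have hδ0 : 0 < δ := by positivity
  have hδm : 3000000 * δ ≤ min r 1 := by
    rw [hδdef, ← mul_div_assoc, div_le_iff₀ (by positivity)]
    have h1 : (L : ℝ) ≤ l := Nat.cast_le.2 (by omega)
    rw [div_le_iff₀ hm] at hL
    nlinarith
  have hδr : 3000000 * δ ≤ r := hδm.trans (min_le_left _ _)
  have hδ1 : 3000000 * δ ≤ 1 := hδm.trans (min_le_right _ _)
  obtain ⟨Γ, hΓu, hΓI, hΓL, hΓR, hΓB, hΓT⟩ :=
    hSq hC hp0 (smallEnds_of hS p l hp0) σ δ rfl hσ.near (by linarith)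
  -- the two conjugations
  let Va : II × II → Matrix (NX p l) (NX p l) ℂ := fun x => pl (xab p l) (U x.1)
  let Vc : II × II → Matrix (NX p l) (NX p l) ℂ := fun x => pl (xcd p l) (U x.2)
  have hab : ∀ A B, Commute (pl (xab p l) A) (pl (xcd p l) B) := xab_comm_xcd
  have hVu : ∀ x, Va x * Vc x ∈ unitary (Matrix (NX p l) (NX p l) ℂ) := fun x =>
    mul_mem (pl_unitary _ (hσ.unitary' x.1)) (pl_unitary _ (hσ.unitary' x.2))
  let u₀ : C(II × II, Mat2 (nextP p l) (nextP p l + 1)) :=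
    ⟨fun x => Va x * Vc x * Γ x * star (Va x * Vc x),
      ((((continuous_pl _).comp (U.continuous.comp continuous_fst)).mul
        ((continuous_pl _).comp (U.continuous.comp continuous_snd))).mul Γ.continuous).mul
      (((continuous_pl _).comp (U.continuous.comp continuous_fst)).mul
        ((continuous_pl _).comp (U.continuous.comp continuous_snd))).star⟩
  have hu₀ : ∀ x, u₀ x = Va x * Vc x * Γ x * star (Va x * Vc x) := fun x => rfl
  have mem : u₀ ∈ DD2 (nextP p l) (nextP p l + 1) :=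
    mem_DD2 σ hσ.start hσ.finish hΓL hΓR hΓB hΓT u₀ hu₀
  refine ⟨⟨u₀, mem⟩, ?_, fun f hf => (ContinuousMap.norm_le _ hε.le).2 fun x => ?_⟩
  · have hu : ∀ x, u₀ x ∈ unitary (Matrix (NX p l) (NX p l) ℂ) := fun x => by
      rw [hu₀]; exact mul_mem (mul_mem (hVu x) (hΓu x)) (Unitary.star_mem (hVu x))
    exact Unitary.mem_iff.2 ⟨ContinuousMap.ext fun x => (Unitary.mem_iff.1 (hu x)).1,
      ContinuousMap.ext fun x => (Unitary.mem_iff.1 (hu x)).2⟩
  obtain ⟨s, t⟩ := x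
  -- the diagonal values along the paths and their flattened replacement
  let g : ℝ → Mat p (p + 1) := flat (150000 * δ) f
  let D : II → Matrix (Out p l) (Out p l) ℂ := fun s =>
    (dg (fun x => f.1 (Set.projIcc (0 : ℝ) 1 zero_le_one x))
      (fun i => (1 - (s : ℝ)) * lab₀ p l i + s * lab₁ p l (σ i))).submatrix (e₀ p l) (e₀ p l)
  have hlab : ∀ i, 0 ≤ lab₀ p l i ∧ lab₀ p l i ≤ 1 := (spread_lab₀ p l (by omega)).mem
  have hD : ∀ s, ‖D s - rep₀ p l g‖ ≤ ε / 10 := fun s => by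
    have e : D s - rep₀ p l g = (dg (fun x => f.1 (Set.projIcc (0 : ℝ) 1 zero_le_one x))
        (fun i => (1 - (s : ℝ)) * lab₀ p l i + s * lab₁ p l (σ i)) -
        dg g (lab₀ p l)).submatrix (e₀ p l) (e₀ p l) := rfl
    rw [e]
    refine (norm_sub_le' _ _).trans (norm_dg_sub_le (by linarith) fun i => ?_)
    set a : II := ⟨lab₀ p l i, hlab i⟩
    have h1 : ‖f.1 (Set.projIcc (0 : ℝ) 1 zero_le_one
        ((1 - (s : ℝ)) * lab₀ p l i + s * lab₁ p l (σ i))) - f.1 a‖ ≤ ε / 20 := by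
      refine hr f hf _ _ ?_
      have h2 := abs_proj_le ((1 - (s : ℝ)) * lab₀ p l i + s * lab₁ p l (σ i)) (a : ℝ)
      rw [Set.projIcc_val zero_le_one a] at h2
      refine h2.trans ?_
      rw [show (1 - (s : ℝ)) * lab₀ p l i + s * lab₁ p l (σ i) - (a : ℝ) =
        -((s : ℝ) * (lab₀ p l i - lab₁ p l (σ i))) by simp only [a]; ring, abs_neg, abs_mul,
        abs_of_nonneg s.2.1]
      calc (s : ℝ) * |lab₀ p l i - lab₁ p l (σ i)| ≤ 1 * δ :=
            mul_le_mul s.2.2 (hσ.near i) (abs_nonneg _) zero_le_one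
        _ ≤ r := by linarith
    have h3 := flat_near (r := r) (η := 150000 * δ) (ε := ε / 20) (by positivity) (by linarith) f
      (hr f hf) (by linarith) a
    calc _ ≤ _ := norm_sub_le_norm_sub_add_norm_sub _ (f.1 a) _
      _ ≤ ε / 20 + ε / 20 := add_le_add h1 (by rw [norm_sub_rev]; exact h3)
      _ = _ := by ring
  -- the square intertwines the flattened values
  have hint := norm_intertwine_le intN (η := 150000 * δ) (ε := ε / 20) (g := g) hp0 (by omega)
    (by positivity) (by linarith) (by linarith)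
    (fun x y hxy => flat_modulus (r := r) (by linarith) f (hr f hf) (by linarith) x y hxy)
    (fun x hx => flat_low (by linarith) f hx) (fun x hx => flat_high (by linarith) f hx)
    (hΓu (s, t)) (hΓI (s, t))
  -- unfolding the conjugations
  set V := Va (s, t) * Vc (s, t) with hV
  set G := Γ (s, t) with hG
  have hVV : star V * V = 1 := Unitary.star_mul_self_of_mem (hVu _)
  have e₁ : inc1 (φ f) (s, t) = V * pl (xab p l) (D s) * star V := by
    have hcm : Commute (pl (xab p l) (D s)) (Vc (s, t)) := hab _ _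
    show (φ f).1 s ⊗ₖ (1 : Mat (nextP p l) (nextP p l + 1)) = _
    rw [hσ.formula f s]
    show pl (xab p l) (U s * D s * star (U s)) = _
    rw [pl_mul, pl_mul, pl_star, hV, star_mul]
    simp only [mul_assoc]
    rw [← mul_assoc (Vc (s, t)) (pl (xab p l) (D s)), ← hcm.eq, mul_assoc,
      ← mul_assoc (Vc (s, t)) (star (Vc (s, t))),
      Unitary.mul_star_self_of_mem (pl_unitary _ (hσ.unitary' t)), one_mul]
  have e₂ : inc2 (φ f) (s, t) = V * pl (xcd p l) (D t) * star V := by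
    have hcm : Commute (Va (s, t)) (Vc (s, t) * pl (xcd p l) (D t) * star (Vc (s, t))) := by
      show Commute (pl (xab p l) (U s)) (pl (xcd p l) (U t) * _ * star (pl (xcd p l) (U t)))
      rw [← pl_star, ← pl_mul, ← pl_mul]
      exact hab _ _
    show (1 : Mat (nextP p l) (nextP p l + 1)) ⊗ₖ (φ f).1 t = _
    rw [hσ.formula f t, eq_pl_xcd]
    show pl (xcd p l) (U t * D t * star (U t)) = _
    rw [pl_mul, pl_mul, pl_star, hV, star_mul]
    show Vc (s, t) * pl (xcd p l) (D t) * star (Vc (s, t)) = _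
    have hVa : Va (s, t) * star (Va (s, t)) = 1 :=
      Unitary.mul_star_self_of_mem (pl_unitary _ (hσ.unitary' s))
    rw [show Va (s, t) * Vc (s, t) * pl (xcd p l) (D t) * (star (Vc (s, t)) * star (Va (s, t))) =
        Va (s, t) * (Vc (s, t) * pl (xcd p l) (D t) * star (Vc (s, t))) * star (Va (s, t)) by
        simp only [mul_assoc], hcm.eq, mul_assoc _ (Va (s, t)), hVa, mul_one]
  show ‖u₀ (s, t) * inc1 (φ f) (s, t) * star (u₀ (s, t)) - inc2 (φ f) (s, t)‖ ≤ ε
  rw [hu₀, ← hV, ← hG, e₁, e₂]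
  refine (norm_flip_le (A₀ := pl (xab p l) (rep₀ p l g)) (B₀ := pl (xcd p l) (rep₀ p l g))
    (ε := ε / 10) (hVu _) (hΓu _) ?_ (hint.trans (by linarith)) ?_).trans (by linarith)
  · rw [← pl_sub]; exact (norm_pl_le _ _).trans (hD s)
  · rw [← pl_sub]; exact (norm_pl_le _ _).trans (hD t)

end

end Vale.P101.ZS.Fl
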