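import Vale.Agent.P101.ZStab.Flip.Frame

/-!
# P101 `Z`-stability: loops with prescribed winding and the filling of three sides of the square
-/

open scoped Kronecker Matrix.Norms.L2Operator
open Matrix

namespace Vale.P101.ZS.Fl

noncomputable section

/-- Unitary loops have winding numbers. -/
theorem exists_winding {ι : Type*} [Fintype ι] [DecidableEq ι] (γ : C(II, Matrix ι ι ℂ))
    (hu : ∀ t, γ t ∈ unitary (Matrix ι ι ℂ)) (h : γ 0 = γ 1) : ∃ w : ℤ, Winding γ w := by
  have hmem : ∀ t, ‖(γ t).det‖ = 1 := fun t =>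
    CStarRing.norm_of_mem_unitary (Matrix.det_of_mem_unitary (hu t))
  let d : C(II, Circle) := ⟨fun t => ⟨(γ t).det, mem_sphere_zero_iff_norm.2 (hmem t)⟩,
    Continuous.subtype_mk γ.continuous.matrix_det _⟩
  obtain ⟨e, he⟩ := Circle.exp_surjective (d 0)
  obtain ⟨Γ, hΓ, -⟩ := Circle.isCoveringMap_exp.exists_path_lifts d e he.symm
  have hlift : ∀ t, Circle.exp (Γ t) = d t := fun t => congrFun hΓ t
  have hends : Circle.exp (Γ 1) = Circle.exp (Γ 0) := by
    rw [hlift, hlift]
    exact Subtype.ext (congrArg Matrix.det h.symm)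
  obtain ⟨w, hw⟩ := Circle.exp_eq_exp.1 hends
  refine ⟨w, Γ, Γ.continuous, by rw [hw]; ring, fun t => ?_⟩
  rw [← Circle.coe_exp, hlift]
  rfl

/-- A diagonal loop of intertwiners with any winding number. -/
theorem exists_loop {p : ℕ} {n J : Type*} [Fintype n] [DecidableEq n] [Fintype J] [DecidableEq J]
    (e : n ≃ J × In p) (a : J → ℝ) {η δ : ℝ} (hp : 0 < p) (hδ : 0 ≤ δ) (hη : 0 < η)
    (hη1 : η ≤ 1 / 4) (hlow : ∃ j, a j < η) (hhigh : ∃ j, 1 - η < a j) (m : ℤ) :
    ∃ Z : C(II, Matrix n n ℂ), Z 0 = 1 ∧ Z 1 = 1 ∧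
      (∀ t, Z t ∈ unitary (Matrix n n ℂ) ∧ IntR (fr e a) (fr e a) η δ (Z t)) ∧
      ∀ t, (Z t).det = Complex.exp (((2 * Real.pi * m * (t : ℝ)) : ℝ) * Complex.I) := by
  obtain ⟨jl, hjl⟩ := hlow
  obtain ⟨jh, hjh⟩ := hhigh
  have hne : jl ≠ jh := fun h => by rw [h] at hjl; linarith
  let lo : J × In p → ℤ := fun y => if y.1 = jl ∧ y.2.2 = 0 then 1 else 0
  let hi : J × In p → ℤ := fun y => if y.1 = jh ∧ y.2.1 = ⟨0, hp⟩ then 1 else 0
  let c : J × In p → ℤ := fun y => hi y - lo y
  let ph : II → J × In p → ℂ := fun t y =>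
    Complex.exp (((2 * Real.pi * m * (t : ℝ) * c y : ℝ)) * Complex.I)
  have hsum : ∑ y, c y = 1 := by
    have c1 : ({x : In p | x.2 = 0} : Finset (In p)).card = p := by
      rw [show ({x : In p | x.2 = 0} : Finset (In p)) = Finset.univ ×ˢ {0} by ext ⟨i, j⟩; simp [eq_comm]]; simp
    have c2 : ({x : In p | x.1 = ⟨0, hp⟩} : Finset (In p)).card = p + 1 := by
      rw [show ({x : In p | x.1 = ⟨0, hp⟩} : Finset (In p)) = {⟨0, hp⟩} ×ˢ Finset.univ by ext ⟨i, j⟩; simp [eq_comm]]
      simp
    have hl : ∑ y, lo y = p := by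
      simp [lo, Fintype.sum_prod_type, ite_and, Finset.sum_ite_eq', c1]
    have hh : ∑ y, hi y = p + 1 := by
      simp [hi, Fintype.sum_prod_type, ite_and, Finset.sum_ite_eq', c2]
    simp [c, Finset.sum_sub_distrib, hl, hh]
  have hphc : Continuous fun t => fun x : n => ph t (e x) := by fun_prop
  refine ⟨⟨fun t => Matrix.diagonal fun x => ph t (e x), hphc.matrix_diagonal⟩, ?_, ?_,
    fun t => ⟨?_, ?_⟩, fun t => ?_⟩
  · simp [ph]
  · show Matrix.diagonal _ = 1
    rw [← Matrix.diagonal_one]
    congr 1
    funext x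
    refine Complex.exp_eq_one_iff.2 ⟨m * c (e x), ?_⟩
    simp
    ring
  · have hu : ∀ y, star (ph t y) * ph t y = 1 := fun y => by
      simp only [ph, Complex.star_def, ← Complex.exp_conj, ← Complex.exp_add, map_mul,
        Complex.conj_ofReal, Complex.conj_I, mul_neg, neg_add_cancel, Complex.exp_zero]
    refine Matrix.mem_unitaryGroup_iff'.2 ?_
    simp only [ContinuousMap.coe_mk]
    rw [Matrix.star_eq_conjTranspose, Matrix.diagonal_conjTranspose, Matrix.diagonal_mul_diagonal]
    simp only [Pi.star_apply, hu, Matrix.diagonal_one]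
  · rw [intR_fr_iff]
    have hs : (Matrix.diagonal fun x => ph t (e x)).submatrix e.symm e.symm =
        Matrix.diagonal (ph t) := by
      rw [Matrix.submatrix_diagonal_equiv]
      congr 1
      funext y
      simp
    show IBand a a η δ ((Matrix.diagonal fun x => ph t (e x)).submatrix e.symm e.symm)
    rw [hs]
    refine ⟨fun x y hxy => Matrix.diagonal_apply_ne _ fun h => ?_,
      fun E x y hx hy => ?_, fun E x y hx hy => ?_⟩
    · subst h
      simp only [sub_self, abs_zero] at hxy
      linarith
    · rw [Matrix.mul_diagonal, Matrix.diagonal_mul, mul_comm]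
      by_cases h : x.1 = y.1 ∧ x.2.2 = y.2.2
      · have hxh : x.1 ≠ jh := fun e => by rw [e] at hx; linarith
        have hyh : y.1 ≠ jh := h.1 ▸ hxh
        simp [ph, c, hi, lo, hyh, h.1, h.2]
      · rw [show ampP (J := J) E x y = 0 by
          simp only [ampP, Matrix.kroneckerMap_apply, Matrix.one_apply]
          rcases not_and_or.1 h with h | h <;> simp [h]]
        simp
    · rw [Matrix.mul_diagonal, Matrix.diagonal_mul, mul_comm]
      by_cases h : x.1 = y.1 ∧ x.2.1 = y.2.1
      · have hxl : x.1 ≠ jl := fun e => by rw [e] at hx; linarith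
        have hyl : y.1 ≠ jl := h.1 ▸ hxl
        simp [ph, c, hi, lo, hyl, h.1, h.2]
      · rw [show ampQ (J := J) E x y = 0 by
          simp only [ampQ, Matrix.kroneckerMap_apply, Matrix.one_apply]
          rcases not_and_or.1 h with h | h <;> simp [h]]
        simp
  · show (Matrix.diagonal fun x => ph t (e x)).det = _
    rw [Matrix.det_diagonal, e.prod_comp (ph t), ← Complex.exp_sum, ← Finset.sum_mul,
      ← Complex.ofReal_sum, ← Finset.mul_sum, ← Int.cast_sum, hsum, Int.cast_one, mul_one]

section fill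

variable {E : Type*} [TopologicalSpace E]

/-- The larger of the two scales of the projection from `(-1, 1/2)`. -/
def sc (x : II × II) : ℝ := max (((x.1 : ℝ) + 1) / 2) |2 * (x.2 : ℝ) - 1|

theorem sc_pos (x : II × II) : 0 < sc x :=
  lt_of_lt_of_le (by linarith [x.1.2.1]) (le_max_left _ _)

/-- The parameter on the bottom or top side. -/
def projX (x : II × II) : II := Set.projIcc 0 1 zero_le_one (((x.1 : ℝ) + 1) / sc x - 1)

/-- The parameter on the right side. -/
def projY (x : II × II) : II := Set.projIcc 0 1 zero_le_one (1 / 2 + ((x.2 : ℝ) - 1 / 2) / sc x)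

theorem continuous_sc : Continuous sc :=
  (((continuous_subtype_val.comp continuous_fst).add continuous_const).div_const 2).max
    (((continuous_subtype_val.comp continuous_snd).const_mul 2).sub continuous_const).abs

theorem continuous_projX : Continuous projX :=
  continuous_projIcc.comp ((((continuous_subtype_val.comp continuous_fst).add
    continuous_const).div continuous_sc fun x => (sc_pos x).ne').sub continuous_const)

theorem continuous_projY : Continuous projY :=
  continuous_projIcc.comp (continuous_const.add (((continuous_subtype_val.comp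
    continuous_snd).sub continuous_const).div continuous_sc fun x => (sc_pos x).ne'))

/-- The square retracted on bottom, right and top side. -/
def ext3 (b r tp : C(II, E)) (h0 : b 1 = r 0) (h1 : r 1 = tp 1) : C(II × II, E) where
  toFun x := if (x.2 : ℝ) ≤ 1 / 2
    then (if 1 - 2 * (x.2 : ℝ) ≤ ((x.1 : ℝ) + 1) / 2 then r (projY x) else b (projX x))
    else (if 2 * (x.2 : ℝ) - 1 ≤ ((x.1 : ℝ) + 1) / 2 then r (projY x) else tp (projX x))
  continuous_toFun := by
    refine Continuous.if_le ?_ ?_ (by fun_prop) continuous_const fun x hx => ?_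
    · refine Continuous.if_le (r.continuous.comp continuous_projY)
        (b.continuous.comp continuous_projX) (by fun_prop) (by fun_prop) fun x hx => ?_
      have hs0 := x.1.2.1
      have hm : sc x = ((x.1 : ℝ) + 1) / 2 :=
        max_eq_left (abs_le.2 ⟨by linarith, by linarith⟩)
      have hY : projY x = 0 := by
        refine Set.projIcc_of_le_left _ (le_of_eq ?_)
        rw [hm, ← hx]
        have : (1 : ℝ) - 2 * (x.2 : ℝ) ≠ 0 := by linarith
        field_simp
        ring
      have hX : projX x = 1 := by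
        refine Set.projIcc_of_right_le _ (le_of_eq ?_)
        rw [hm]
        have : (x.1 : ℝ) + 1 ≠ 0 := by linarith
        field_simp
        ring
      rw [hX, hY, h0]
    · refine Continuous.if_le (r.continuous.comp continuous_projY)
        (tp.continuous.comp continuous_projX) (by fun_prop) (by fun_prop) fun x hx => ?_
      have hs0 := x.1.2.1
      have hm : sc x = ((x.1 : ℝ) + 1) / 2 :=
        max_eq_left (abs_le.2 ⟨by linarith, by linarith⟩)
      have hY : projY x = 1 := by
        refine Set.projIcc_of_right_le _ (le_of_eq ?_)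
        rw [hm, ← hx]
        have : 2 * (x.2 : ℝ) - 1 ≠ 0 := by linarith
        field_simp
        ring
      have hX : projX x = 1 := by
        refine Set.projIcc_of_right_le _ (le_of_eq ?_)
        rw [hm]
        have : (x.1 : ℝ) + 1 ≠ 0 := by linarith
        field_simp
        ring
      rw [hX, hY, h1]
    · have hs0 := x.1.2.1
      rw [if_pos (by linarith), if_pos (by linarith)]

variable {b r tp : C(II, E)} {h0 : b 1 = r 0} {h1 : r 1 = tp 1}

theorem ext3_apply (x : II × II) : ext3 b r tp h0 h1 x = if (x.2 : ℝ) ≤ 1 / 2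
    then (if 1 - 2 * (x.2 : ℝ) ≤ ((x.1 : ℝ) + 1) / 2 then r (projY x) else b (projX x))
    else (if 2 * (x.2 : ℝ) - 1 ≤ ((x.1 : ℝ) + 1) / 2 then r (projY x) else tp (projX x)) := rfl

theorem ext3_right (t : II) : ext3 b r tp h0 h1 (1, t) = r t := by
  have ht := t.2
  have hm : sc (1, t) = 1 := by
    rw [sc, max_eq_left] <;> simp only [Set.Icc.coe_one]
    · norm_num
    · rw [abs_le]; constructor <;> linarith [ht.1, ht.2]
  have hY : projY (1, t) = t := by
    rw [projY, hm]
    convert Set.projIcc_val zero_le_one t using 2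
    simp
  rw [ext3_apply, hY]
  simp only [Set.Icc.coe_one]
  split_ifs <;> first | rfl | (exfalso; linarith [ht.1, ht.2])

theorem ext3_bottom (s : II) : ext3 b r tp h0 h1 (s, 0) = b s := by
  rw [ext3_apply, if_pos (by simp only [Set.Icc.coe_zero]; norm_num)]
  have hm : sc (s, 0) = 1 := by
    rw [sc, max_eq_right] <;> simp only [Set.Icc.coe_zero]
    · norm_num
    · norm_num; linarith [s.2.2]
  by_cases h : 1 - 2 * ((0 : II) : ℝ) ≤ ((s : ℝ) + 1) / 2
  · rw [if_pos h]
    simp only [Set.Icc.coe_zero] at h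
    have hs : s = 1 := Subtype.ext (by simp only [Set.Icc.coe_one]; linarith [s.2.2])
    have hY : projY (s, 0) = 0 := by
      refine Set.projIcc_of_le_left _ (le_of_eq ?_)
      rw [hm]; simp
    rw [hY, hs, h0]
  · rw [if_neg h]
    congr 1
    rw [projX, hm]
    convert Set.projIcc_val zero_le_one s using 2
    simp

theorem ext3_top (s : II) : ext3 b r tp h0 h1 (s, 1) = tp s := by
  rw [ext3_apply, if_neg (by simp only [Set.Icc.coe_one]; norm_num)]
  have hm : sc (s, 1) = 1 := by
    rw [sc, max_eq_right] <;> simp only [Set.Icc.coe_one]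
    · norm_num
    · norm_num; linarith [s.2.2]
  by_cases h : 2 * ((1 : II) : ℝ) - 1 ≤ ((s : ℝ) + 1) / 2
  · rw [if_pos h]
    simp only [Set.Icc.coe_one] at h
    have hs : s = 1 := Subtype.ext (by simp only [Set.Icc.coe_one]; linarith [s.2.2])
    have hY : projY (s, 1) = 1 := by
      refine Set.projIcc_of_right_le _ (le_of_eq ?_)
      rw [hm]; simp
    rw [hY, hs, h1]
  · rw [if_neg h]
    congr 1
    rw [projX, hm]
    convert Set.projIcc_val zero_le_one s using 2
    simp

theorem ext3_mem {S : Set E} (hb : ∀ t, b t ∈ S) (hr : ∀ t, r t ∈ S) (htp : ∀ t, tp t ∈ S)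
    (x : II × II) : ext3 b r tp h0 h1 x ∈ S := by
  rw [ext3_apply]
  split_ifs <;> first | exact hb _ | exact hr _ | exact htp _

/-- The parameter of the right side seen from the left side. -/
def exty : C(II, II) :=
  ⟨fun t => Set.projIcc 0 1 zero_le_one (2 * (t : ℝ) - 1 / 2),
    continuous_projIcc.comp (by fun_prop)⟩

theorem exty_zero : exty 0 = 0 := Set.projIcc_of_le_left zero_le_one (by norm_num)

theorem exty_one : exty 1 = 1 := Set.projIcc_of_right_le zero_le_one (by norm_num)

/-- Multiplying the right side by a loop multiplies the left side by the loop. -/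
theorem ext3_twist [Monoid E] {r' : C(II, E)} {h0' : b 1 = r' 0} {h1' : r' 1 = tp 1}
    (Z : II → E) (hZ0 : Z 0 = 1) (hZ1 : Z 1 = 1) (hr : ∀ u, r' u = r u * Z u) (t : II) :
    ext3 b r' tp h0' h1' (0, t) = ext3 b r tp h0 h1 (0, t) * Z (exty t) := by
  have hz : ((0 : II) : ℝ) = 0 := Set.Icc.coe_zero
  rw [ext3_apply, ext3_apply]
  dsimp only
  rw [hz]
  split_ifs with h₁ h₂ h₂
  · rw [hr]
    congr 2
    have hm : sc (0, t) = 1 / 2 := by
      simp only [sc, hz]
      rw [max_eq_left (abs_le.2 ⟨by linarith, by linarith⟩)]; norm_num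
    simp only [projY, exty, ContinuousMap.coe_mk, hm]
    congr 1
    ring
  · rw [show exty t = 0 from Set.projIcc_of_le_left zero_le_one (by linarith), hZ0, mul_one]
  · rw [hr]
    congr 2
    have hm : sc (0, t) = 1 / 2 := by
      simp only [sc, hz]
      rw [max_eq_left (abs_le.2 ⟨by linarith, by linarith⟩)]; norm_num
    simp only [projY, exty, ContinuousMap.coe_mk, hm]
    congr 1
    ring
  · rw [show exty t = 1 from Set.projIcc_of_right_le zero_le_one (by linarith), hZ1, mul_one]

end fill

end

end Vale.P101.ZS.Fl
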