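import Vale.Agent.P101.ZStab.Flip.Edge
import Vale.Agent.P101.ZStab.Flip.Loops

/-!
# P101 `Z`-stability: the intertwiner on the square (helper file of `ZStab/Flip`)

The four sides are joined by the paths of the small algebras, the winding number of the boundary is
removed by loops on two sides (`gcd (P, P+1) = 1`) and the square is filled.
-/

open scoped Kronecker Matrix.Norms.L2Operator
open Matrix

namespace Vale.P101.ZS.Fl

noncomputable section

variable {p l : ℕ}

theorem spread_mono {J : Type*} [Fintype J] [DecidableEq J] {a : J → ℝ} {δ δ' : ℝ}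
    (h : Spread a δ) (hd : δ ≤ δ') : Spread a δ' where
  mem := h.mem
  chain i j hij := by
    obtain ⟨k, h1, h2⟩ := h.chain i j hij
    exact ⟨k, h1, by linarith⟩
  low := by obtain ⟨i, hi⟩ := h.low; exact ⟨i, hi.trans hd⟩
  high := by obtain ⟨i, hi⟩ := h.high; exact ⟨i, by linarith⟩

/-- The flip in the coordinates of the frame. -/
def toX (p l : ℕ) (W : Matrix (NX p l) (NX p l) ℂ) :
    Matrix ((Pos₀ p l × Out p l) × In p) ((Pos₀ p l × Out p l) × In p) ℂ :=
  re (fX p l) (fl p l * W)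

theorem toX_mul (A B : Matrix (NX p l) (NX p l) ℂ) :
    toX p l (A * B) = toX p l A * re (fX p l) B := by
  rw [toX, toX, ← re_mul, mul_assoc]

theorem toX_unitary {W : Matrix (NX p l) (NX p l) ℂ}
    (hW : W ∈ unitary (Matrix (NX p l) (NX p l) ℂ)) :
    toX p l W ∈ unitary (Matrix ((Pos₀ p l × Out p l) × In p) ((Pos₀ p l × Out p l) × In p) ℂ) :=
  re_unitary _ (mul_mem (pm_mem _) hW)

theorem continuous_toX : Continuous (toX p l) :=
  (continuous_re _).comp (continuous_const.mul continuous_id)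

/-- The inverse of `toX`. -/
def ofX (p l : ℕ)
    (X : Matrix ((Pos₀ p l × Out p l) × In p) ((Pos₀ p l × Out p l) × In p) ℂ) :
    Matrix (NX p l) (NX p l) ℂ :=
  pm ((xcd p l).trans (xab p l).symm) * re (fX p l).symm X

theorem ofX_toX (W : Matrix (NX p l) (NX p l) ℂ) : ofX p l (toX p l W) = W := by
  have h : re (fX p l).symm (re (fX p l) (fl p l * W)) = fl p l * W := by
    simp [re, Matrix.submatrix_submatrix]
  rw [ofX, toX, h, ← mul_assoc, fl, pm_trans]
  have e : ((xcd p l).trans (xab p l).symm).trans ((xab p l).trans (xcd p l).symm) =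
      Equiv.refl _ := Equiv.ext fun x => by simp
  rw [e, pm_refl, one_mul]

theorem iband_toX {W : Matrix (NX p l) (NX p l) ℂ} {η d : ℝ} (hη : 0 < η) (hη1 : η < 1)
    (h : IntR (fun g => pl (xcd p l) (rep₀ p l g)) (fun g => pl (xab p l) (rep₀ p l g)) η d W) :
    IBand (fun j : Pos₀ p l × Out p l => lab₀ p l j.1) (fun j => lab₀ p l j.1) η d (toX p l W) := by
  have h2 := h.exact_mul hη hη1 (V := fl p l) (σ' := fun g => pl (xab p l) (rep₀ p l g))
    fun g _ => swap_pl _ _ _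
  rw [show (fun g => pl (xab p l) (rep₀ p l g)) = fr (fX p l) (fun j => lab₀ p l j.1) from
    funext fun g => (fr_fX g).symm, intR_fr_iff] at h2
  exact h2

theorem intR_ofX {X : Matrix ((Pos₀ p l × Out p l) × In p) ((Pos₀ p l × Out p l) × In p) ℂ}
    {η d : ℝ} (hη : 0 < η) (hη1 : η < 1)
    (h : IBand (fun j : Pos₀ p l × Out p l => lab₀ p l j.1) (fun j => lab₀ p l j.1) η d X) :
    IntR (fun g => pl (xcd p l) (rep₀ p l g)) (fun g => pl (xab p l) (rep₀ p l g)) η d
      (ofX p l X) := by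
  refine IntR.exact_mul (ρ' := fun g => pl (xab p l) (rep₀ p l g)) ?_ hη hη1
    fun g _ => swap_pl _ _ _
  rw [show (fun g => pl (xab p l) (rep₀ p l g)) = fr (fX p l) (fun j => lab₀ p l j.1) from
    funext fun g => (fr_fX g).symm, intR_fr_iff]
  convert h using 1
  simp [re, Matrix.submatrix_submatrix]

theorem gL_unitary {W : Matrix (NL p l) (NL p l) ℂ} (hW : W ∈ unitary _) :
    gL W ∈ unitary (Matrix (NX p l) (NX p l) ℂ) :=
  pl_unitary _ hW

theorem gB_unitary {W : Matrix (NB p l) (NB p l) ℂ} (hW : W ∈ unitary _) :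
    gB W ∈ unitary (Matrix (NX p l) (NX p l) ℂ) :=
  pl_unitary _ hW

theorem gR_unitary (σ : Pos₀ p l ≃ Pos₁ p l) {W : Matrix (NR p l) (NR p l) ℂ}
    (hW : W ∈ unitary _) : gR σ W ∈ unitary (Matrix (NX p l) (NX p l) ℂ) :=
  mul_mem (mul_mem (pm_mem _) (pl_unitary _ hW)) (pm_mem _)

theorem gT_unitary (σ : Pos₀ p l ≃ Pos₁ p l) {W : Matrix (NT p l) (NT p l) ℂ}
    (hW : W ∈ unitary _) : gT σ W ∈ unitary (Matrix (NX p l) (NX p l) ℂ) :=
  mul_mem (mul_mem (pm_mem _) (pl_unitary _ hW)) (pm_mem _)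

theorem toX_gR_mul (σ : Pos₀ p l ≃ Pos₁ p l) (W Z : Matrix (NR p l) (NR p l) ℂ) :
    toX p l (gR σ (W * Z)) = toX p l (gR σ W) * re (fX p l) (gR σ Z) := by
  rw [gR_twist, toX_mul]

theorem toX_gL_mul (W Z : Matrix (NL p l) (NL p l) ℂ) :
    toX p l (gL (W * Z)) = toX p l (gL W) * re (fX p l) (gL Z) := by
  rw [gL, pl_mul, toX_mul]
  rfl

/-- A twisted loop without winding. -/
theorem noWinding_twist {ι : Type*} [Fintype ι] [DecidableEq ι] (base γ : II → Matrix ι ι ℂ)
    (w : ℤ) (θ : II → ℝ) (hθc : Continuous θ) (hθ : θ 1 - θ 0 = 2 * Real.pi * w)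
    (hdet : ∀ t, (base t).det = Complex.exp (θ t * Complex.I)) (P : ℕ) (Y : C(II, II))
    (hY0 : Y 0 = 0) (hY1 : Y 1 = 1)
    (hγ : ∀ t, (γ t).det = (base t).det *
      (star (Complex.exp (((2 * Real.pi * (-w : ℤ) * ((Y t : II) : ℝ)) : ℝ) * Complex.I) ^ P) *
        Complex.exp (((2 * Real.pi * (-w : ℤ) * (t : ℝ)) : ℝ) * Complex.I) ^ (P + 1))) :
    NoWinding γ := by
  refine ⟨fun t => θ t + 2 * Real.pi * (-w : ℤ) * ((P + 1 : ℕ) * (t : ℝ) -
    (P : ℕ) * ((Y t : II) : ℝ)), hθc.add (continuous_const.mul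
      ((continuous_const.mul continuous_subtype_val).sub (continuous_const.mul
        (continuous_subtype_val.comp Y.continuous)))), ?_, fun t => ?_⟩
  · simp only [hY0, hY1, Set.Icc.coe_zero, Set.Icc.coe_one]
    push_cast
    linarith
  · rw [hγ, hdet, ← Complex.exp_nat_mul, ← Complex.exp_nat_mul, Complex.star_def,
      ← Complex.exp_conj, ← Complex.exp_add, ← Complex.exp_add]
    congr 1
    simp only [map_mul, map_natCast, Complex.conj_ofReal, Complex.conj_I]
    push_cast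
    ring

variable (p l) in
/-- Admissible values. -/
def Adm (δ : ℝ) :
    Set (Matrix ((Pos₀ p l × Out p l) × In p) ((Pos₀ p l × Out p l) × In p) ℂ) :=
  {X | X ∈ unitary _ ∧ IBand (fun j : Pos₀ p l × Out p l => lab₀ p l j.1)
    (fun j => lab₀ p l j.1) (1300 * δ) (500 * δ) X}

/-- The four sides, and the loops that change their winding. -/
theorem exists_sides (hC : IntConnStmt) (hp : 0 < p) (h : SmallEnds p l hp)
    (σ : Pos₀ p l ≃ Pos₁ p l) (δ : ℝ) (hδ : 0 < δ)
    (hσ : ∀ i, |lab₀ p l i - lab₁ p l (σ i)| ≤ δ) (hsmall : 2000000 * δ ≤ 1)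
    (hs0 : Spread (lab₀ p l) δ) (hs1 : Spread (fun i => lab₁ p l (σ i)) δ) :
    ∃ b r tp lf : C(II, Matrix ((Pos₀ p l × Out p l) × In p) ((Pos₀ p l × Out p l) × In p) ℂ),
      (∀ t, b t ∈ Adm p l δ ∧ tp t ∈ Adm p l δ ∧ r t ∈ Adm p l δ ∧ lf t ∈ Adm p l δ) ∧
      b 1 = r 0 ∧ r 1 = tp 1 ∧ lf 0 = b 0 ∧ lf 1 = tp 0 ∧
      (∀ s, ∃ W, ofX p l (b s) = gB W) ∧ (∀ s, ∃ W, ofX p l (tp s) = gT σ W) ∧
      ∀ m : ℤ, ∃ (r' lf' : C(II, Matrix ((Pos₀ p l × Out p l) × In p)
          ((Pos₀ p l × Out p l) × In p) ℂ))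
        (ZR : II → Matrix ((Pos₀ p l × Out p l) × In p) ((Pos₀ p l × Out p l) × In p) ℂ)
        (ZL : II → Matrix ((Pos₀ p l × Out p l) × In p) ((Pos₀ p l × Out p l) × In p) ℂ),
        (∀ t, r' t ∈ Adm p l δ ∧ lf' t ∈ Adm p l δ ∧ r' t = r t * ZR t ∧ lf' t = lf t * ZL t) ∧
        ZR 0 = 1 ∧ ZR 1 = 1 ∧ ZL 0 = 1 ∧ ZL 1 = 1 ∧
        (∀ t, ∃ W, ofX p l (r' t) = gR σ W) ∧ (∀ t, ∃ W, ofX p l (lf' t) = gL W) ∧
        (∀ t, (ZR t).det = Complex.exp (((2 * Real.pi * m * (t : ℝ)) : ℝ) * Complex.I) ^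
          nextP p l) ∧
        ∀ t, (ZL t).det = Complex.exp (((2 * Real.pi * m * (t : ℝ)) : ℝ) * Complex.I) ^
          (nextP p l + 1) := by
  have : Nonempty (IP p l) := ⟨⟨0, by unfold nextP; exact Nat.mul_pos hp (by omega)⟩⟩
  have : Nonempty (IQ p l) := ⟨0⟩
  -- the paths
  have dLu : dL σ ∈ unitary (Matrix (NL p l) (NL p l) ℂ) :=
    mul_mem (pm_mem _) (mul_mem (mul_mem (pm_mem _) (pm_mem _)) (pm_mem _))
  have dRu : dR σ ∈ unitary (Matrix (NR p l) (NR p l) ℂ) :=
    mul_mem (mul_mem (mul_mem (pm_mem _) (pm_mem _)) (pm_mem _)) (pm_mem _)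
  have dTu : dT σ ∈ unitary (Matrix (NT p l) (NT p l) ℂ) :=
    mul_mem (mul_mem (mul_mem (pm_mem _) (pm_mem _)) (pm_mem _)) (pm_mem _)
  have dBu : dB σ ∈ unitary (Matrix (NB p l) (NB p l) ℂ) :=
    mul_mem (mul_mem (pm_mem _) (mul_mem (pm_mem _) (pm_mem _))) (pm_mem _)
  have iL0 := intR_dL (η := δ) (η'' := 3 * δ) hδ.le hσ h hδ (by linarith) (by linarith)
  have iR0 := intR_dR (η := δ) (η'' := 3 * δ) hδ.le hσ h hδ (by linarith) (by linarith)
  have iT0 := intR_dT (η := δ) (η'' := 3 * δ) hδ.le hσ h hδ (by linarith) (by linarith)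
  have iB0 := intR_dB (η := δ) (η'' := 3 * δ) hδ.le hσ h hδ (by linarith) (by linarith)
  rw [show (fun g => pl (lad p l) (rep₀ p l g)) = fr (fL p l) (fun j => lab₀ p l j.1) from
    funext fun g => (fr_fL g).symm] at iL0
  rw [show (fun g => pl (rcb p l) (rep₁ p l g)) = fr (fR σ) (fun j => lab₁ p l (σ j.1)) from
    funext fun g => (fr_fR σ g).symm] at iR0
  rw [show (fun g => pl (tab p l) (rep₀ p l g)) = fr (fT p l) (fun j => lab₀ p l j.1) from
    funext fun g => (fr_fT g).symm] at iT0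
  rw [show (fun g => pl (bab p l) (rep₀ p l g)) = fr (fB p l) (fun j => lab₀ p l j.1) from
    funext fun g => (fr_fB g).symm] at iB0
  have sL : Spread (fun j : Pos₀ p l × IP p l => lab₀ p l j.1) δ := spread_fst hs0
  have sR : Spread (fun j : Pos₀ p l × IQ p l => lab₁ p l (σ j.1)) δ := spread_fst hs1
  have sT : Spread (fun j : Pos₀ p l × IQ p l => lab₀ p l j.1) δ := spread_fst hs0
  obtain ⟨γL, γL0, γL1, hγL⟩ := exists_path hC (fL p l) _ hp (show 0 < δ + δ by linarith)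
    (by linarith) (by linarith) (spread_mono sL (by linarith)) dLu iL0
  obtain ⟨γR, γR0, γR1, hγR⟩ := exists_path hC (fR σ) _ hp (show 0 < δ + δ by linarith)
    (by linarith) (by linarith) (spread_mono sR (by linarith)) dRu iR0
  obtain ⟨γT, γT0, γT1, hγT⟩ := exists_path hC (fT p l) _ hp (show 0 < δ + δ by linarith)
    (by linarith) (by linarith) (spread_mono sT (by linarith)) dTu iT0
  obtain ⟨γB, γB0, γB1, hγB⟩ := exists_path hC (fB p l) _ hp (show 0 < δ + δ by linarith)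
    (by linarith) (by linarith) (spread_mono sL (by linarith)) dBu iB0
  have hgR : Continuous (gR σ (p := p) (l := l)) :=
    (continuous_const.mul (continuous_pl _)).mul continuous_const
  refine ⟨⟨fun s => toX p l (gB (wB p l * γB s)),
      continuous_toX.comp ((continuous_pl _).comp (continuous_const.mul γB.continuous))⟩,
    ⟨fun t => toX p l (gR σ (wR σ * γR t)),
      continuous_toX.comp (hgR.comp (continuous_const.mul γR.continuous))⟩,
    ⟨fun s => toX p l (gT σ (wT σ * γT s)), continuous_toX.comp ((continuous_const.mul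
      ((continuous_pl _).comp (continuous_const.mul γT.continuous))).mul continuous_const)⟩,
    ⟨fun t => toX p l (gL (wL p l * γL t)),
      continuous_toX.comp ((continuous_pl _).comp (continuous_const.mul γL.continuous))⟩,
    fun t => ⟨?_, ?_, ?_, ?_⟩, ?_, ?_, ?_, ?_, fun s => ⟨_, ofX_toX _⟩, fun s => ⟨_, ofX_toX _⟩,
    fun m => ?_⟩
  · exact ⟨toX_unitary (gB_unitary (mul_mem (pm_mem _) (hγB t).1)),
      iband_mono (iband_toX (by linarith) (by linarith)
        (intR_gB hδ.le h (by linarith) (by linarith) (by linarith) (hγB t).2))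
        (by linarith) (by linarith)⟩
  · exact ⟨toX_unitary (gT_unitary σ (mul_mem (pm_mem _) (hγT t).1)),
      iband_mono (iband_toX (by linarith) (by linarith)
        (intR_gT hδ.le hσ h (by linarith) (by linarith) (by linarith) (hγT t).2))
        (by linarith) (by linarith)⟩
  · exact ⟨toX_unitary (gR_unitary σ (mul_mem (pm_mem _) (hγR t).1)),
      iband_mono (iband_toX (by linarith) (by linarith)
        (intR_gR hδ.le hσ h (by linarith) (by linarith) (by linarith) (hγR t).2))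
        (by linarith) (by linarith)⟩
  · exact ⟨toX_unitary (gL_unitary (mul_mem (pm_mem _) (hγL t).1)),
      iband_mono (iband_toX (by linarith) (by linarith)
        (intR_gL hδ.le h (by linarith) (by linarith) (by linarith) (hγL t).2))
        (by linarith) (by linarith)⟩
  · simp only [ContinuousMap.coe_mk, γB1, γR0, mul_one, corner₁₀]
  · simp only [ContinuousMap.coe_mk, γR1, γT1, corner₁₁]
  · simp only [ContinuousMap.coe_mk, γL0, γB0, mul_one, corner₀₀]
  · simp only [ContinuousMap.coe_mk, γL1, γT0, mul_one, corner₀₁]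
  obtain ⟨il, hil⟩ := sL.low
  obtain ⟨ih, hih⟩ := sL.high
  obtain ⟨jl, hjl⟩ := sR.low
  obtain ⟨jh, hjh⟩ := sR.high
  obtain ⟨ZL, L0, L1, hL, dtL⟩ := exists_loop (fL p l) (fun j => lab₀ p l j.1) (δ := 0)
    (η := 30 * δ) hp le_rfl (by linarith) (by linarith) ⟨il, by linarith⟩ ⟨ih, by linarith⟩ m
  obtain ⟨ZR, R0, R1, hR, dtR⟩ := exists_loop (fR σ) (fun j => lab₁ p l (σ j.1)) (δ := 0)
    (η := 30 * δ) hp le_rfl (by linarith) (by linarith) ⟨jl, by linarith⟩ ⟨jh, by linarith⟩ m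
  refine ⟨⟨fun t => toX p l (gR σ (wR σ * (γR t * ZR t))), continuous_toX.comp (hgR.comp
      (continuous_const.mul (γR.continuous.mul ZR.continuous)))⟩,
    ⟨fun t => toX p l (gL (wL p l * (γL t * ZL t))), continuous_toX.comp ((continuous_pl _).comp
      (continuous_const.mul (γL.continuous.mul ZL.continuous)))⟩,
    fun t => re (fX p l) (gR σ (ZR t)), fun t => re (fX p l) (gL (ZL t)),
    fun t => ⟨?_, ?_, ?_, ?_⟩, ?_, ?_, ?_, ?_, fun t => ⟨_, ofX_toX _⟩, fun t => ⟨_, ofX_toX _⟩,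
    fun t => ?_, fun t => ?_⟩
  · have hm := IntR.mul (η'' := 10 * (3 * δ) + 100 * (δ + δ)) (by linarith) le_rfl (hγR t).2
      (hR t).2 (by linarith) (by linarith)
    exact ⟨toX_unitary (gR_unitary σ (mul_mem (pm_mem _) (mul_mem (hγR t).1 (hR t).1))),
      iband_mono (iband_toX (by linarith) (by linarith)
        (intR_gR hδ.le hσ h (by linarith) (by linarith) (by linarith) hm))
        (by linarith) (by linarith)⟩
  · have hm := IntR.mul (η'' := 10 * (3 * δ) + 100 * (δ + δ)) (by linarith) le_rfl (hγL t).2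
      (hL t).2 (by linarith) (by linarith)
    exact ⟨toX_unitary (gL_unitary (mul_mem (pm_mem _) (mul_mem (hγL t).1 (hL t).1))),
      iband_mono (iband_toX (by linarith) (by linarith)
        (intR_gL hδ.le h (by linarith) (by linarith) (by linarith) hm))
        (by linarith) (by linarith)⟩
  · simp only [ContinuousMap.coe_mk, ← mul_assoc, toX_gR_mul]
  · simp only [ContinuousMap.coe_mk, ← mul_assoc, toX_gL_mul]
  · simp only [R0, gR_one, re_one]
  · simp only [R1, gR_one, re_one]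
  · simp only [L0, gL, pl_one, re_one]
  · simp only [L1, gL, pl_one, re_one]
  · rw [det_re, det_gR_mul, dtR]
  · rw [det_re, det_gL, dtL]

/-- The intertwiner of the two copies on the square, of the right shape on each side. -/
theorem exists_square (hC : IntConnStmt) (hp : 0 < p) (h : SmallEnds p l hp)
    (σ : Pos₀ p l ≃ Pos₁ p l) (δ : ℝ) (hδl : δ = 3 / ((l : ℝ) + 1))
    (hσ : ∀ i, |lab₀ p l i - lab₁ p l (σ i)| ≤ δ) (hsmall : 2000000 * δ ≤ 1) :
    ∃ Γ : C(II × II, Matrix (NX p l) (NX p l) ℂ),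
      (∀ x, Γ x ∈ unitary (Matrix (NX p l) (NX p l) ℂ)) ∧
      (∀ x, IntR (fun g => pl (xcd p l) (rep₀ p l g)) (fun g => pl (xab p l) (rep₀ p l g))
        (150000 * δ) (150000 * δ) (Γ x)) ∧
      (∀ t, ∃ W, Γ (0, t) = gL W) ∧ (∀ t, ∃ W, Γ (1, t) = gR σ W) ∧
      (∀ s, ∃ W, Γ (s, 0) = gB W) ∧ ∀ s, ∃ W, Γ (s, 1) = gT σ W := by
  have hl1 : (0 : ℝ) < (l : ℝ) + 1 := by positivity
  have hδ : 0 < δ := by rw [hδl]; positivity
  have hl : 0 < l := by
    rcases Nat.eq_zero_or_pos l with h0 | h0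
    · subst h0; norm_num at hδl; rw [hδl] at hsmall; norm_num at hsmall
    · exact h0
  have : Nonempty (Out p l) :=
    ⟨(⟨0, by unfold nextP; exact Nat.mul_pos hp (by omega)⟩, 0)⟩
  have hs0 : Spread (lab₀ p l) δ := hδl ▸ spread_lab₀ p l hl
  have hs1 : Spread (fun i => lab₁ p l (σ i)) δ :=
    hδl ▸ spread_lab₁ hp hl (fun i => hδl ▸ hσ i)
  obtain ⟨b, r, tp, lf, hA, k1, k2, k3, k4, shB, shT, loops⟩ :=
    exists_sides hC hp h σ δ hδ hσ hsmall hs0 hs1
  have hx0 : ∀ x, ext3 b r tp k1 k2 x ∈ Adm p l δ :=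
    ext3_mem (fun t => (hA t).1) (fun t => (hA t).2.2.1) (fun t => (hA t).2.1)
  let base : C(II, _) := ⟨fun t => star (ext3 b r tp k1 k2 (0, t)) * lf t,
    (continuous_star.comp ((ext3 b r tp k1 k2).continuous.comp
      (continuous_const.prodMk continuous_id))).mul lf.continuous⟩
  have b0 : base 0 = 1 := by
    change star (ext3 b r tp k1 k2 (0, 0)) * lf 0 = 1
    rw [ext3_bottom, k3]
    exact Unitary.star_mul_self_of_mem (hA 0).1.1
  have b1 : base 1 = 1 := by
    change star (ext3 b r tp k1 k2 (0, 1)) * lf 1 = 1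
    rw [ext3_top, k4]
    exact Unitary.star_mul_self_of_mem (hA 0).2.1.1
  obtain ⟨w, θ, hθc, hθ, hdet⟩ := exists_winding base
    (fun t => mul_mem (Unitary.star_mem (hx0 _).1) (hA t).2.2.2.1) (b0.trans b1.symm)
  obtain ⟨r', lf', ZR, ZL, hA', R0, R1, L0, L1, shR, shL, dR', dL'⟩ := loops (-w)
  have m1 : b 1 = r' 0 := by rw [(hA' 0).2.2.1, R0, mul_one, k1]
  have m2 : r' 1 = tp 1 := by rw [(hA' 1).2.2.1, R1, mul_one, k2]
  have hxm : ∀ x, ext3 b r' tp m1 m2 x ∈ Adm p l δ :=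
    ext3_mem (fun t => (hA t).1) (fun t => (hA' t).1) (fun t => (hA t).2.1)
  let γ : C(II, _) := ⟨fun t => star (ext3 b r' tp m1 m2 (0, t)) * lf' t,
    (continuous_star.comp ((ext3 b r' tp m1 m2).continuous.comp
      (continuous_const.prodMk continuous_id))).mul lf'.continuous⟩
  have tw : ∀ t, ext3 b r' tp m1 m2 (0, t) = ext3 b r tp k1 k2 (0, t) * ZR (exty t) := fun t =>
    ext3_twist ZR R0 R1 (fun u => (hA' u).2.2.1) t
  have c0 : γ 0 = 1 := by
    change star (ext3 b r' tp m1 m2 (0, 0)) * lf' 0 = 1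
    rw [ext3_bottom, (hA' 0).2.2.2, L0, mul_one, k3]
    exact Unitary.star_mul_self_of_mem (hA 0).1.1
  have c1 : γ 1 = 1 := by
    change star (ext3 b r' tp m1 m2 (0, 1)) * lf' 1 = 1
    rw [ext3_top, (hA' 1).2.2.2, L1, mul_one, k4]
    exact Unitary.star_mul_self_of_mem (hA 0).2.1.1
  have hγ : ∀ t, γ t ∈ unitary _ ∧ IBand (fun j : Pos₀ p l × Out p l => lab₀ p l j.1)
      (fun j => lab₀ p l j.1) (2300 * δ) (1000 * δ) (γ t) := fun t =>
    ⟨mul_mem (Unitary.star_mem (hxm _).1) (hA' t).2.1.1, iband_mono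
      (iband_mul (η'' := 2300 * δ) (by linarith) (by linarith) (ibstar (hxm (0, t)).2)
        (hA' t).2.1.2 (by linarith) (by linarith)) le_rfl (by linarith)⟩
  have hw : NoWinding γ := by
    refine noWinding_twist base γ w θ hθc hθ hdet (nextP p l) exty exty_zero exty_one fun t => ?_
    change (star (ext3 b r' tp m1 m2 (0, t)) * lf' t).det = _
    rw [tw, (hA' t).2.2.2, star_mul, Matrix.det_mul, Matrix.det_mul, Matrix.det_mul,
      show (base t).det = (star (ext3 b r tp k1 k2 (0, t))).det * (lf t).det from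
        Matrix.det_mul _ _, ← dR' (exty t), ← dL' t,
      show star (ZR (exty t)).det = (star (ZR (exty t))).det from
        (Matrix.det_conjTranspose _).symm]
    ring
  obtain ⟨-, hfill⟩ := hC p (Pos₀ p l × Out p l) (fun j => lab₀ p l j.1) (2300 * δ) (1000 * δ) hp
    (by linarith) (by linarith) (by linarith) (spread_mono (spread_fst hs0) (by linarith))
  obtain ⟨H, Hγ, H1, H01, hH⟩ := hfill γ c0 c1 hγ hw
  refine ⟨⟨fun x => ofX p l (ext3 b r' tp m1 m2 x * H x), continuous_const.mul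
    ((continuous_re _).comp ((ext3 b r' tp m1 m2).continuous.mul H.continuous))⟩,
    fun x => ?_, fun x => ?_, fun t => ?_, fun t => ?_, fun s => ?_, fun s => ?_⟩
  · exact mul_mem (pm_mem _) (re_unitary _ (mul_mem (hxm x).1 (hH x).1))
  · exact intR_ofX (by linarith) (by linarith) (iband_mono (iband_mul (η'' := 150000 * δ)
      (by linarith) (by linarith) (hxm x).2 (hH x).2 (by linarith) (by linarith)) le_rfl
      (by linarith))
  · obtain ⟨W, hW⟩ := shL t
    refine ⟨W, ?_⟩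
    change ofX p l (ext3 b r' tp m1 m2 (0, t) * H (0, t)) = _
    rw [Hγ]
    change ofX p l (_ * (star (ext3 b r' tp m1 m2 (0, t)) * lf' t)) = _
    rw [← mul_assoc, Unitary.mul_star_self_of_mem (hxm (0, t)).1, one_mul, hW]
  · obtain ⟨W, hW⟩ := shR t
    refine ⟨W, ?_⟩
    change ofX p l (ext3 b r' tp m1 m2 (1, t) * H (1, t)) = _
    rw [H1, mul_one, ext3_right, hW]
  · obtain ⟨W, hW⟩ := shB s
    refine ⟨W, ?_⟩
    change ofX p l (ext3 b r' tp m1 m2 (s, 0) * H (s, 0)) = _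
    rw [(H01 s).1, mul_one, ext3_bottom, hW]
  · obtain ⟨W, hW⟩ := shT s
    refine ⟨W, ?_⟩
    change ofX p l (ext3 b r' tp m1 m2 (s, 1) * H (s, 1)) = _
    rw [(H01 s).2, mul_one, ext3_top, hW]

end

end Vale.P101.ZS.Fl
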