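import Vale.Agent.P101.ZStab.Flip.Place
import Vale.Agent.P101.ZStab.IntBasic

/-!
# P101 `Z`-stability: the values of the intertwiner on the sides (helper file of `ZStab/Flip`)

A path in the small algebra of a side gives a path in the whole fibre, intertwining the two copies.
-/

open scoped Kronecker Matrix.Norms.L2Operator
open Matrix

namespace Vale.P101.ZS.Fl

noncomputable section

section re

variable {n m : Type*} [Fintype n] [DecidableEq n] [Fintype m] [DecidableEq m]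

/-- The coordinates of a frame. -/
def re (e : n ≃ m) (X : Matrix n n ℂ) : Matrix m m ℂ := X.submatrix e.symm e.symm

omit [DecidableEq n] [DecidableEq m] in
theorem re_mul (e : n ≃ m) (A B : Matrix n n ℂ) : re e (A * B) = re e A * re e B :=
  (Matrix.submatrix_mul_equiv A B _ _ _).symm

omit [Fintype n] [DecidableEq n] [Fintype m] [DecidableEq m] in
theorem re_star (e : n ≃ m) (A : Matrix n n ℂ) : re e (star A) = star (re e A) := rfl

omit [Fintype n] [Fintype m] in
theorem re_one (e : n ≃ m) : re e (1 : Matrix n n ℂ) = 1 :=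
  Matrix.submatrix_one_equiv e.symm

theorem re_unitary (e : n ≃ m) {A : Matrix n n ℂ} (hA : A ∈ unitary (Matrix n n ℂ)) :
    re e A ∈ unitary (Matrix m m ℂ) := by
  constructor <;>
    simp [← re_star, ← re_mul, Unitary.star_mul_self_of_mem hA, Unitary.mul_star_self_of_mem hA,
      re_one]

theorem det_re (e : n ≃ m) (A : Matrix n n ℂ) : (re e A).det = A.det :=
  Matrix.det_submatrix_equiv_self e.symm A

omit [Fintype n] [DecidableEq n] [Fintype m] [DecidableEq m] in
theorem continuous_re (e : n ≃ m) : Continuous (re (n := n) e) :=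
  continuous_matrix fun i j => continuous_id.matrix_elem _ _

end re

variable {p : ℕ} {n J : Type} [Fintype n] [DecidableEq n] [Fintype J] [DecidableEq J]

theorem iband_mono {a' a : J → ℝ} {η δ η' δ' : ℝ} {X : Matrix (J × In p) (J × In p) ℂ}
    (h : IBand a' a η δ X) (hη : η ≤ η') (hδ : δ ≤ δ') : IBand a' a η' δ' X :=
  ⟨fun x y hxy => h.band x y (lt_of_le_of_lt hδ hxy),
    fun E x y hx hy => h.pinv E x y (by linarith) (by linarith),
    fun E x y hx hy => h.qinv E x y (hη.trans hx) (hη.trans hy)⟩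

theorem intR_mono {e' e : n ≃ J × In p} {a' a : J → ℝ} {η δ η' δ' : ℝ} {X : Matrix n n ℂ}
    (h : IntR (fr e' a') (fr e a) η δ X) (hη : η ≤ η') (hδ : δ ≤ δ') :
    IntR (fr e' a') (fr e a) η' δ' X :=
  (intR_fr_iff e' e a' a η' δ' X).2 (iband_mono ((intR_fr_iff e' e a' a η δ X).1 h) hη hδ)

/-- Intertwining unitaries are connected, in a frame. -/
theorem exists_path (hC : IntConnStmt) (e : n ≃ J × In p) (a : J → ℝ) {η δ : ℝ} (hp : 0 < p)
    (hδ : 0 < δ) (hδη : δ ≤ η) (hη : 100 * η ≤ 1) (hs : Spread a δ) {D : Matrix n n ℂ}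
    (hu : D ∈ unitary (Matrix n n ℂ)) (hD : IntR (fr e a) (fr e a) η δ D) :
    ∃ γ : C(II, Matrix n n ℂ), γ 0 = 1 ∧ γ 1 = D ∧
      ∀ t, γ t ∈ unitary (Matrix n n ℂ) ∧ IntR (fr e a) (fr e a) (10 * η) (100 * δ) (γ t) := by
  obtain ⟨γ, h0, h1, hγ⟩ := (hC p J a η δ hp hδ hδη hη hs).1 (re e D) (re_unitary e hu)
    ((intR_fr_iff e e a a η δ D).1 hD)
  have back : ∀ A, re e (re e.symm A) = A := fun A => by
    simp [re, Matrix.submatrix_submatrix]
  have back' : ∀ A, re e.symm (re e A) = A := fun A => by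
    simp [re, Matrix.submatrix_submatrix]
  refine ⟨⟨fun t => re e.symm (γ t), (continuous_re e.symm).comp γ.continuous⟩, ?_, ?_,
    fun t => ⟨re_unitary e.symm (hγ t).1, ?_⟩⟩
  · simp [h0, re_one]
  · simp [h1, back']
  · rw [intR_fr_iff]
    have := (hγ t).2
    rw [← back (γ t)] at this
    exact this

theorem spread_fst {X : Type*} [Fintype X] [DecidableEq X] [Nonempty X] {a : J → ℝ} {δ : ℝ}
    (h : Spread a δ) : Spread (fun j : J × X => a j.1) δ where
  mem j := h.mem j.1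
  chain i j hij := by
    obtain ⟨k, hk, hk'⟩ := h.chain i.1 j.1 hij
    exact ⟨(k, i.2), hk, hk'⟩
  low := by obtain ⟨i, hi⟩ := h.low; exact ⟨(i, Classical.arbitrary X), hi⟩
  high := by obtain ⟨i, hi⟩ := h.high; exact ⟨(i, Classical.arbitrary X), hi⟩

variable (p) (l : ℕ)

theorem spread_lab₀ (hl : 0 < l) : Spread (lab₀ p l) (3 / ((l : ℝ) + 1)) := by
  have hl1 : (0 : ℝ) < (l : ℝ) + 1 := by positivity
  have hg : ∀ c : Fin l, 0 < grid l c ∧ grid l c ≤ 1 := by
    intro c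
    refine ⟨by unfold grid; positivity, (div_le_one hl1).2 ?_⟩
    have : ((c : ℕ) : ℝ) ≤ l := by exact_mod_cast c.2.le
    linarith
  have hmem : ∀ i, 0 ≤ lab₀ p l i ∧ lab₀ p l i ≤ 1 := by
    rintro (j | ⟨c, b⟩)
    · simp [lab₀]
    · exact ⟨(hg c).1.le, (hg c).2⟩
  have hw : (1 : ℝ) / ((l : ℝ) + 1) ≤ 3 / ((l : ℝ) + 1) := by gcongr; norm_num
  refine ⟨hmem, ?_, ⟨.inl ⟨0, by unfold k₁; omega⟩, by simp [lab₀]; positivity⟩,
    ⟨.inr (⟨l - 1, by omega⟩, 0), ?_⟩⟩
  · rintro i i' hii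
    rcases i with j | ⟨c, b⟩
    · refine ⟨.inr (⟨0, hl⟩, 0), (hg ⟨0, hl⟩).1, ?_⟩
      simp only [lab₀, Sum.elim_inl, Sum.elim_inr, grid, Nat.cast_zero, zero_add]
      exact hw
    · by_cases hc : (c : ℕ) + 1 < l
      · refine ⟨.inr (⟨c + 1, hc⟩, b), ?_, ?_⟩
        · simp only [lab₀, Sum.elim_inr, grid, Nat.cast_add, Nat.cast_one]
          gcongr
          linarith
        · simp only [lab₀, Sum.elim_inr, grid, Nat.cast_add, Nat.cast_one]
          rw [add_div ((c : ℝ) + 1) 1]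
          linarith
      · rcases i' with j' | ⟨c', b'⟩
        · simp only [lab₀, Sum.elim_inl, Sum.elim_inr] at hii
          linarith [(hg c).1]
        · simp only [lab₀, Sum.elim_inr, grid] at hii
          rw [div_lt_div_iff_of_pos_right hl1, add_lt_add_iff_right, Nat.cast_lt] at hii
          have := c'.2
          omega
  · simp only [lab₀, Sum.elim_inr, grid]
    rw [Nat.cast_sub (by omega : 1 ≤ l), Nat.cast_one, sub_add_cancel]
    have : (l : ℝ) / ((l : ℝ) + 1) = 1 - 1 / ((l : ℝ) + 1) := by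
      field_simp
      ring
    linarith

theorem spread_lab₁ {p l : ℕ} (hp : 0 < p) {σ : Pos₀ p l ≃ Pos₁ p l} (hl : 0 < l)
    (hσ : ∀ i, |lab₀ p l i - lab₁ p l (σ i)| ≤ 3 / ((l : ℝ) + 1)) :
    Spread (fun i => lab₁ p l (σ i)) (3 / ((l : ℝ) + 1)) := by
  have hl1 : (0 : ℝ) < (l : ℝ) + 1 := by positivity
  have hg : ∀ c : Fin l, 0 < grid l c ∧ grid l c ≤ 1 := by
    intro c
    refine ⟨by unfold grid; positivity, (div_le_one hl1).2 ?_⟩
    have : ((c : ℕ) : ℝ) ≤ l := by exact_mod_cast c.2.le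
    linarith
  have hw : (1 : ℝ) / ((l : ℝ) + 1) ≤ 3 / ((l : ℝ) + 1) := by gcongr; norm_num
  have hmem : ∀ j, 0 ≤ lab₁ p l j ∧ lab₁ p l j ≤ 1 := by
    rintro (j | ⟨c, b⟩)
    · simp [lab₁]
    · exact ⟨(hg c).1.le, (hg c).2⟩
  refine ⟨fun i => hmem _, ?_, ⟨σ.symm (.inr (⟨0, hl⟩, ⟨0, by unfold nextP; exact Nat.mul_pos hp (by omega)⟩)), ?_⟩,
    ⟨σ.symm (.inl ⟨0, by unfold k₀; omega⟩), ?_⟩⟩
  · intro i i' hii
    simp only at hii ⊢
    rcases h : σ i with j | ⟨c, b⟩
    · rw [h] at hii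
      simp only [lab₁, Sum.elim_inl] at hii
      linarith [(hmem (σ i')).2, show lab₁ p l (σ i') = Sum.elim (fun _ => (1 : ℝ))
        (fun x => grid l x.1) (σ i') from rfl]
    · by_cases hc : (c : ℕ) + 1 < l
      · refine ⟨σ.symm (.inr (⟨c + 1, hc⟩, b)), ?_, ?_⟩
        · simp only [Equiv.apply_symm_apply, lab₁, Sum.elim_inr, grid, Nat.cast_add, Nat.cast_one]
          gcongr
          linarith
        · simp only [Equiv.apply_symm_apply, lab₁, Sum.elim_inr, grid, Nat.cast_add, Nat.cast_one]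
          rw [add_div ((c : ℝ) + 1) 1]
          linarith
      · have hcl : ((c : ℕ) : ℝ) + 1 = l := by exact_mod_cast (by omega : (c : ℕ) + 1 = l)
        refine ⟨σ.symm (.inl ⟨0, by unfold k₀; omega⟩), ?_, ?_⟩
        · simp only [Equiv.apply_symm_apply, lab₁, Sum.elim_inl, Sum.elim_inr, grid, hcl]
          exact (div_lt_one hl1).2 (by linarith)
        · simp only [Equiv.apply_symm_apply, lab₁, Sum.elim_inl, Sum.elim_inr, grid, hcl]
          have : (l : ℝ) / ((l : ℝ) + 1) + 1 / ((l : ℝ) + 1) = 1 := by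
            rw [← add_div, div_self hl1.ne']
          linarith
  · simp only [Equiv.apply_symm_apply, lab₁, Sum.elim_inr, grid, Nat.cast_zero, zero_add]
    exact hw
  · simp only [Equiv.apply_symm_apply, lab₁, Sum.elim_inl]
    linarith [div_nonneg (by norm_num : (0 : ℝ) ≤ 3) hl1.le]

variable {p l}

/-- The frame of the side `s = 0`. -/
def fL (p l : ℕ) : NL p l ≃ (Pos₀ p l × IP p l) × In p := ext' (lad p l) (e₀ p l)
/-- The frame of the side `s = 1`. -/
def fR (σ : Pos₀ p l ≃ Pos₁ p l) : NR p l ≃ (Pos₀ p l × IQ p l) × In p := ext' (rcb p l) (eB σ)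
/-- The frame of the side `t = 1`. -/
def fT (p l : ℕ) : NT p l ≃ (Pos₀ p l × IQ p l) × In p := ext' (tab p l) (e₀ p l)
/-- The frame of the side `t = 0`. -/
def fB (p l : ℕ) : NB p l ≃ (Pos₀ p l × IP p l) × In p := ext' (bab p l) (e₀ p l)
/-- The frame of the fibre. -/
def fX (p l : ℕ) : NX p l ≃ (Pos₀ p l × Out p l) × In p := ext' (xab p l) (e₀ p l)

theorem fr_fL (g : ℝ → Mat p (p + 1)) :
    fr (fL p l) (fun j => lab₀ p l j.1) g = pl (lad p l) (rep₀ p l g) :=
  (pl_fr' _ (e₀ p l) (lab₀ p l) g).symm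

theorem fr_fR (σ : Pos₀ p l ≃ Pos₁ p l) (g : ℝ → Mat p (p + 1)) :
    fr (fR σ) (fun j => lab₁ p l (σ j.1)) g = pl (rcb p l) (rep₁ p l g) := by
  rw [rep₁_eq σ]; exact (pl_fr' _ (eB σ) (fun i => lab₁ p l (σ i)) g).symm

theorem fr_fT (g : ℝ → Mat p (p + 1)) :
    fr (fT p l) (fun j => lab₀ p l j.1) g = pl (tab p l) (rep₀ p l g) :=
  (pl_fr' _ (e₀ p l) (lab₀ p l) g).symm

theorem fr_fB (g : ℝ → Mat p (p + 1)) :
    fr (fB p l) (fun j => lab₀ p l j.1) g = pl (bab p l) (rep₀ p l g) :=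
  (pl_fr' _ (e₀ p l) (lab₀ p l) g).symm

theorem fr_fX (g : ℝ → Mat p (p + 1)) :
    fr (fX p l) (fun j => lab₀ p l j.1) g = pl (xab p l) (rep₀ p l g) :=
  (pl_fr' _ (e₀ p l) (lab₀ p l) g).symm

variable (p l) in
/-- The flip. -/
def fl : Matrix (NX p l) (NX p l) ℂ := pm ((xab p l).trans (xcd p l).symm)

/-- The two copies commute. -/
theorem xab_comm_xcd (A B : Matrix (Out p l) (Out p l) ℂ) :
    Commute (pl (xab p l) A) (pl (xcd p l) B) := by
  have e1 : pl (xab p l) A = A ⊗ₖ (1 : Matrix (Out p l) (Out p l) ℂ) := rfl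
  have e2 : pl (xcd p l) B = (1 : Matrix (Out p l) (Out p l) ℂ) ⊗ₖ B := by
    ext x y
    simp [pl, xcd, Matrix.one_apply]
  rw [e1, e2, Commute, SemiconjBy, ← Matrix.mul_kronecker_mul, ← Matrix.mul_kronecker_mul]
  simp

variable (σ : Pos₀ p l ≃ Pos₁ p l)

/-- The intertwiner of a side `s = 0` matrix. -/
def gL (W : Matrix (NL p l) (NL p l) ℂ) : Matrix (NX p l) (NX p l) ℂ := pl (iL p l) W

/-- The intertwiner of a side `s = 1` matrix. -/
def gR (W : Matrix (NR p l) (NR p l) ℂ) : Matrix (NX p l) (NX p l) ℂ :=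
  pm (cj (xab p l) (te σ).symm) * pl (iR p l) W * pm (cj (xab p l) (te σ))

/-- The intertwiner of a side `t = 1` matrix. -/
def gT (W : Matrix (NT p l) (NT p l) ℂ) : Matrix (NX p l) (NX p l) ℂ :=
  pm (cj (xcd p l) (te σ).symm) * pl (iT p l) W * pm (cj (xcd p l) (te σ))

/-- The intertwiner of a side `t = 0` matrix. -/
def gB (W : Matrix (NB p l) (NB p l) ℂ) : Matrix (NX p l) (NX p l) ℂ := pl (iB p l) W

/-- The first values of the four sides. -/
def wL (p l : ℕ) : Matrix (NL p l) (NL p l) ℂ := pm ((lcd p l).trans (lad p l).symm)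
/-- The first value on `s = 1`. -/
def wR : Matrix (NR p l) (NR p l) ℂ := pm (cj (rcb p l) (te σ).symm)
/-- The first value on `t = 1`. -/
def wT : Matrix (NT p l) (NT p l) ℂ := pm (cj (tad p l) (te σ))
/-- The first value on `t = 0`. -/
def wB (p l : ℕ) : Matrix (NB p l) (NB p l) ℂ := pm ((bcb p l).trans (bab p l).symm)

theorem corner₀₀ : gL (wL p l) = gB (wB p l) := by
  simp only [gL, gB, wL, wB, pl_pm']
  congr 1

theorem corner₁₀ : gB (wB p l * dB σ) = gR σ (wR σ) := by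
  simp only [gR, gB, wR, wB, dB, pm_trans, pl_pm']
  congr 1

theorem corner₀₁ : gL (wL p l * dL σ) = gT σ (wT σ) := by
  simp only [gL, gT, wL, wT, dL, pm_trans, pl_pm']
  congr 1

theorem corner₁₁ : gR σ (wR σ * dR σ) = gT σ (wT σ * dT σ) := by
  simp only [gR, gT, wR, wT, dR, dT, pm_trans, pl_pm']
  congr 1
  apply Equiv.ext
  rintro ⟨⟨a, b⟩, c, d⟩
  simp [cj, rcd, rcb, tad, tab, iR, iT, xab, xcd]

theorem gR_twist (W Z : Matrix (NR p l) (NR p l) ℂ) :
    gR σ (W * Z) = gR σ W * gR σ Z := by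
  simp only [gR, pl_mul, mul_assoc]
  rw [← mul_assoc (pm (cj (xab p l) (te σ))) (pm (cj (xab p l) (te σ).symm)), pm_trans,
    ← cj_symm, Equiv.self_trans_symm, pm_refl, one_mul]

theorem gR_one : gR σ 1 = 1 := by
  rw [gR, pl_one, mul_one, pm_trans, ← cj_symm, Equiv.symm_trans_self, pm_refl]

theorem det_gR_mul (Z : Matrix (NR p l) (NR p l) ℂ) :
    (gR σ Z).det = Z.det ^ nextP p l := by
  rw [gR, Matrix.det_mul, Matrix.det_mul, mul_comm (pm (cj (xab p l) (te σ).symm)).det,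
    mul_assoc, ← Matrix.det_mul, pm_trans, ← cj_symm, Equiv.symm_trans_self, pm_refl,
    Matrix.det_one, mul_one, det_pl, Fintype.card_fin]

theorem det_gL (Z : Matrix (NL p l) (NL p l) ℂ) : (gL Z).det = Z.det ^ (nextP p l + 1) := by
  rw [gL, det_pl, Fintype.card_fin]

variable {σ} {δ : ℝ} (hδ : 0 ≤ δ) (hσ : ∀ i, |lab₀ p l i - lab₁ p l (σ i)| ≤ δ)
  {hp : 0 < p} (h : SmallEnds p l hp) {η d : ℝ} (hη : 0 < η) (hd : 0 ≤ d)
  (hη1 : η + 2 * d + 3 * δ < 1)

include h hη hη1 hd hδ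

/-- The side `s = 0` intertwines. -/
theorem intR_gL {γ : Matrix (NL p l) (NL p l) ℂ}
    (hγ : IntR (fr (fL p l) fun j => lab₀ p l j.1) (fr (fL p l) fun j => lab₀ p l j.1) η d γ) :
    IntR (fun g => pl (xcd p l) (rep₀ p l g)) (fun g => pl (xab p l) (rep₀ p l g)) η d
      (gL (wL p l * γ)) := by
  have h1 : η < 1 := by linarith
  have h2 := hγ.congr hη h1 (σ' := fun g => pl (lad p l) (rep₀ p l g))
    (σ := fun g => pl (lad p l) (rep₀ p l g)) (fun g _ => (fr_fL g).symm)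
    (fun g _ => (fr_fL g).symm)
  have h3 := (h2.exact_mul hη h1 (V := wL p l) (σ' := fun g => pl (lcd p l) (rep₀ p l g))
    fun g _ => swap_pl _ _ _).place (iL p l)
  exact h3.congr hη h1 (fun g _ => (iL_finish g).symm) (fun g hg => (iL_start h hg).symm)

/-- The side `t = 0` intertwines. -/
theorem intR_gB {γ : Matrix (NB p l) (NB p l) ℂ}
    (hγ : IntR (fr (fB p l) fun j => lab₀ p l j.1) (fr (fB p l) fun j => lab₀ p l j.1) η d γ) :
    IntR (fun g => pl (xcd p l) (rep₀ p l g)) (fun g => pl (xab p l) (rep₀ p l g)) η d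
      (gB (wB p l * γ)) := by
  have h1 : η < 1 := by linarith
  have h2 := hγ.congr hη h1 (σ' := fun g => pl (bab p l) (rep₀ p l g))
    (σ := fun g => pl (bab p l) (rep₀ p l g)) (fun g _ => (fr_fB g).symm)
    (fun g _ => (fr_fB g).symm)
  have h3 := (h2.exact_mul hη h1 (V := wB p l) (σ' := fun g => pl (bcb p l) (rep₀ p l g))
    fun g _ => swap_pl _ _ _).place (iB p l)
  exact h3.congr hη h1 (fun g hg => (iB_finish h hg).symm) (fun g _ => (iB_start g).symm)

include hσ

/-- The side `s = 1` intertwines. -/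
theorem intR_gR {γ : Matrix (NR p l) (NR p l) ℂ}
    (hγ : IntR (fr (fR σ) fun j => lab₁ p l (σ j.1)) (fr (fR σ) fun j => lab₁ p l (σ j.1)) η d γ) :
    IntR (fun g => pl (xcd p l) (rep₀ p l g)) (fun g => pl (xab p l) (rep₀ p l g))
      (η + 2 * d + 3 * δ) (d + 2 * δ) (gR σ (wR σ * γ)) := by
  have h1 : η < 1 := by linarith
  have hw := (intR_tau' hδ hσ (η := η)).place (rcb p l)
  rw [pl_pm'] at hw
  rw [show (fun g => pl (rcb p l) (rep₁ p l g)) = fr (fR σ) (fun j => lab₁ p l (σ j.1)) from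
      funext fun g => (fr_fR σ g).symm,
    show (fun g => pl (rcb p l) (rep₀ p l g)) =
      fr (ext' (rcb p l) (e₀ p l)) (fun j => lab₀ p l j.1) from
      funext fun g => pl_fr' _ (e₀ p l) (lab₀ p l) g] at hw
  have hW := IntR.mul hδ hd hw hγ (η'' := η + δ + d) le_rfl le_rfl
  have hW' := hW.congr (by linarith) (by linarith) (σ' := fun g => pl (rcd p l) (rep₀ p l g))
    (σ := fun g => pl (rcb p l) (rep₁ p l g))
    (fun g hg => by rw [right_congr h hg]; exact pl_fr' _ (e₀ p l) (lab₀ p l) g)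
    (fun g _ => (fr_fR σ g).symm)
  have h3 := (hW'.place (iR p l)).congr (by linarith) (by linarith)
    (σ' := fun g => pl (xcd p l) (rep₀ p l g)) (σ := fun g => pl (xab p l) (rep₁ p l g))
    (fun g _ => (iR_finish g).symm) (fun g hg => (iR_start h hg).symm)
  have h4 := h3.exact_mul (by linarith) (by linarith) (V := pm (cj (xab p l) (te σ).symm))
    (σ' := fun g => pl (xcd p l) (rep₀ p l g)) fun g _ => by
      rw [← pl_pm']
      exact (xab_comm_xcd _ _).symm
  have h5 := (intR_tau hδ hσ (η := η + δ + d)).place (xab p l)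
  rw [pl_pm'] at h5
  rw [show (fun g => pl (xcd p l) (rep₀ p l g)) =
      fr (ext' (xcd p l) (e₀ p l)) (fun j => lab₀ p l j.1) from
      funext fun g => pl_fr' _ (e₀ p l) (lab₀ p l) g,
    show (fun g => pl (xab p l) (rep₁ p l g)) =
      fr (ext' (xab p l) (eB σ)) (fun j => lab₁ p l (σ j.1)) from
      funext fun g => by rw [rep₁_eq σ, pl_fr']] at h4
  rw [show (fun g => pl (xab p l) (rep₁ p l g)) =
      fr (ext' (xab p l) (eB σ)) (fun j => lab₁ p l (σ j.1)) from
      funext fun g => by rw [rep₁_eq σ, pl_fr'],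
    show (fun g => pl (xab p l) (rep₀ p l g)) =
      fr (fX p l) (fun j => lab₀ p l j.1) from funext fun g => (fr_fX g).symm] at h5
  have h6 := IntR.mul (δ := δ + d) (δ' := δ) (by linarith) hδ h4 h5
    (η'' := η + δ + d + (δ + d) + δ) le_rfl le_rfl
  rw [show (fun g => pl (xcd p l) (rep₀ p l g)) =
      fr (ext' (xcd p l) (e₀ p l)) (fun j => lab₀ p l j.1) from
      funext fun g => pl_fr' _ (e₀ p l) (lab₀ p l) g,
    show (fun g => pl (xab p l) (rep₀ p l g)) =
      fr (fX p l) (fun j => lab₀ p l j.1) from funext fun g => (fr_fX g).symm]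
  exact intR_mono h6 (by linarith) (by linarith)

/-- The side `t = 1` intertwines. -/
theorem intR_gT {γ : Matrix (NT p l) (NT p l) ℂ}
    (hγ : IntR (fr (fT p l) fun j => lab₀ p l j.1) (fr (fT p l) fun j => lab₀ p l j.1) η d γ) :
    IntR (fun g => pl (xcd p l) (rep₀ p l g)) (fun g => pl (xab p l) (rep₀ p l g))
      (η + 2 * d + 3 * δ) (d + 2 * δ) (gT σ (wT σ * γ)) := by
  have h1 : η < 1 := by linarith
  have hw := ((intR_tau hδ hσ (η := η)).place (tad p l)).congr hη h1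
    (σ' := fun g => pl (tad p l) (rep₁ p l g)) (σ := fun g => pl (tab p l) (rep₀ p l g))
    (fun _ _ => rfl) (fun g hg => top_congr h hg)
  rw [pl_pm'] at hw
  rw [show (fun g => pl (tad p l) (rep₁ p l g)) =
      fr (ext' (tad p l) (eB σ)) (fun j => lab₁ p l (σ j.1)) from
      funext fun g => by rw [rep₁_eq σ, pl_fr'],
    show (fun g => pl (tab p l) (rep₀ p l g)) = fr (fT p l) (fun j => lab₀ p l j.1) from
      funext fun g => (fr_fT g).symm] at hw
  have hW := IntR.mul hδ hd hw hγ (η'' := η + δ + d) le_rfl le_rfl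
  have hW' := hW.congr (by linarith) (by linarith) (σ' := fun g => pl (tad p l) (rep₁ p l g))
    (σ := fun g => pl (tab p l) (rep₀ p l g))
    (fun g _ => by rw [rep₁_eq σ, pl_fr']) (fun g _ => (fr_fT g).symm)
  have h3 := (hW'.place (iT p l)).congr (by linarith) (by linarith)
    (σ' := fun g => pl (xcd p l) (rep₁ p l g)) (σ := fun g => pl (xab p l) (rep₀ p l g))
    (fun g hg => (iT_finish h hg).symm) (fun g _ => (iT_start g).symm)
  have h4 := h3.mul_exact (by linarith) (by linarith) (V := pm (cj (xcd p l) (te σ)))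
    (σ := fun g => pl (xab p l) (rep₀ p l g)) fun g _ => by
      rw [← pl_pm']
      exact xab_comm_xcd _ _
  have h5 := (intR_tau' hδ hσ (η := η + δ + d)).place (xcd p l)
  rw [pl_pm'] at h5
  rw [show (fun g => pl (xcd p l) (rep₁ p l g)) =
      fr (ext' (xcd p l) (eB σ)) (fun j => lab₁ p l (σ j.1)) from
      funext fun g => by rw [rep₁_eq σ, pl_fr'],
    show (fun g => pl (xab p l) (rep₀ p l g)) =
      fr (fX p l) (fun j => lab₀ p l j.1) from funext fun g => (fr_fX g).symm] at h4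
  rw [show (fun g => pl (xcd p l) (rep₁ p l g)) =
      fr (ext' (xcd p l) (eB σ)) (fun j => lab₁ p l (σ j.1)) from
      funext fun g => by rw [rep₁_eq σ, pl_fr'],
    show (fun g => pl (xcd p l) (rep₀ p l g)) =
      fr (ext' (xcd p l) (e₀ p l)) (fun j => lab₀ p l j.1) from
      funext fun g => pl_fr' _ (e₀ p l) (lab₀ p l) g] at h5
  have h6 := IntR.mul (δ := δ) (δ' := δ + d) hδ (by linarith) h5 h4
    (η'' := η + δ + d + δ + (δ + d)) le_rfl le_rfl
  rw [show (fun g => pl (xcd p l) (rep₀ p l g)) =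
      fr (ext' (xcd p l) (e₀ p l)) (fun j => lab₀ p l j.1) from
      funext fun g => pl_fr' _ (e₀ p l) (lab₀ p l) g,
    show (fun g => pl (xab p l) (rep₀ p l g)) =
      fr (fX p l) (fun j => lab₀ p l j.1) from funext fun g => (fr_fX g).symm]
  rw [show gT σ (wT σ * γ) = pm (cj (xcd p l) (te σ).symm) *
    (pl (iT p l) (pm (cj (tad p l) (te σ)) * γ) * pm (cj (xcd p l) (te σ))) from mul_assoc _ _ _]
  exact intR_mono h6 (by linarith) (by linarith)

end

end Vale.P101.ZS.Fl
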