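import Vale.Agent.P101.ZStab.StepPins

/-!
# P101 `Z`-stability: intertwiners read through representations (helper file of `ZStab/Flip`)

`IntR ρ' ρ η δ X` says that `X` is banded and factor invariant between two representations of the
functions on the interval; on frames it is `IBand`, and it is transported by homomorphisms and by exact
intertwiners.
-/

open scoped Kronecker Matrix.Norms.L2Operator
open Matrix

namespace Vale.P101.ZS.Fl

noncomputable section

/-- The permutation matrix sending `x` to `π x`. -/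
def pm {n : Type*} [DecidableEq n] (π : n ≃ n) : Matrix n n ℂ :=
  (1 : Matrix n n ℂ).submatrix π id

section perm

variable {n : Type*} [DecidableEq n] [Fintype n]

omit [Fintype n] in
theorem pm_apply (π : n ≃ n) (x y : n) : pm π x y = if π x = y then 1 else 0 := rfl

theorem pm_mul (π : n ≃ n) (A : Matrix n n ℂ) : pm π * A = A.submatrix π id := by
  ext x y
  simp [Matrix.mul_apply, pm_apply]

theorem mul_pm (π : n ≃ n) (A : Matrix n n ℂ) : A * pm π = A.submatrix id π.symm := by
  ext x y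
  simp [Matrix.mul_apply, pm_apply, ← Equiv.eq_symm_apply]

theorem pm_trans (π ρ : n ≃ n) : pm π * pm ρ = pm (π.trans ρ) := by
  ext x y
  rw [pm_mul]
  rfl

omit [Fintype n] in
theorem pm_refl : pm (Equiv.refl n) = 1 := rfl

omit [Fintype n] in
theorem pm_star (π : n ≃ n) : star (pm π) = pm π.symm := by
  ext x y
  simp only [Matrix.star_apply, pm_apply, apply_ite (star : ℂ → ℂ), star_one, star_zero]
  exact if_congr ⟨fun h => by rw [← h, Equiv.symm_apply_apply],
    fun h => by rw [← h, Equiv.apply_symm_apply]⟩ rfl rfl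

theorem pm_mem (π : n ≃ n) : pm π ∈ unitary (Matrix n n ℂ) := by
  constructor <;> simp [pm_star, pm_trans, pm_refl]

/-- Exact intertwining of reindexed matrices. -/
theorem sub_pm {m : Type*} (M : Matrix m m ℂ) (e' e : n ≃ m) :
    M.submatrix e' e' * pm (e'.trans e.symm) = pm (e'.trans e.symm) * M.submatrix e e := by
  ext x y
  simp [pm_mul, mul_pm]

end perm

section place

variable {n m X : Type*}

/-- A matrix placed on a tensor factor. -/
def pl [DecidableEq X] (e : n ≃ m × X) (A : Matrix m m ℂ) : Matrix n n ℂ :=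
  (A ⊗ₖ (1 : Matrix X X ℂ)).submatrix e e

variable [DecidableEq X] [Fintype X] [Fintype n] [Fintype m]

theorem pl_mul (e : n ≃ m × X) (A B : Matrix m m ℂ) : pl e (A * B) = pl e A * pl e B := by
  rw [pl, pl, pl, Matrix.submatrix_mul_equiv, ← Matrix.mul_kronecker_mul, one_mul]

omit [Fintype X] [Fintype n] [Fintype m] in
theorem pl_star (e : n ≃ m × X) (A : Matrix m m ℂ) : pl e (star A) = star (pl e A) := by
  ext x y
  simp [pl, Matrix.one_apply, eq_comm]
  split_ifs <;> simp

omit [Fintype X] [Fintype n] [Fintype m] in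
theorem pl_zero (e : n ≃ m × X) : pl e (0 : Matrix m m ℂ) = 0 := by
  ext x y
  simp [pl]

omit [Fintype X] [Fintype n] [Fintype m] in
theorem pl_one [DecidableEq n] [DecidableEq m] (e : n ≃ m × X) :
    pl e (1 : Matrix m m ℂ) = 1 := by
  rw [pl, Matrix.one_kronecker_one, Matrix.submatrix_one_equiv]

omit [Fintype X] [Fintype n] [Fintype m] in
theorem continuous_pl (e : n ≃ m × X) : Continuous (pl (n := n) e) :=
  continuous_matrix fun i j =>
    ((continuous_id.matrix_elem (e i).1 (e j).1).mul continuous_const)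

theorem pl_unitary [DecidableEq n] [DecidableEq m] (e : n ≃ m × X) {A : Matrix m m ℂ}
    (hA : A ∈ unitary (Matrix m m ℂ)) : pl e A ∈ unitary (Matrix n n ℂ) := by
  constructor <;>
    simp [← pl_star, ← pl_mul, Unitary.star_mul_self_of_mem hA, Unitary.mul_star_self_of_mem hA,
      pl_one]

omit [Fintype n] [Fintype m] [Fintype X] in
theorem pl_pm [DecidableEq n] [DecidableEq m] (e : n ≃ m × X) (π : m ≃ m) :
    pl e (pm π) = pm ((e.trans (π.prodCongr (Equiv.refl X))).trans e.symm) := by
  ext x y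
  simp only [pl, Matrix.submatrix_apply, Matrix.kroneckerMap_apply, pm_apply, Matrix.one_apply,
    Equiv.trans_apply, Equiv.symm_apply_eq, Prod.ext_iff, Equiv.prodCongr_apply, Prod.map_fst,
    Prod.map_snd, Equiv.refl_apply, ite_and]
  split_ifs <;> simp

theorem det_pl [DecidableEq n] [DecidableEq m] (e : n ≃ m × X) (A : Matrix m m ℂ) :
    (pl e A).det = A.det ^ Fintype.card X := by
  simp [pl, Matrix.det_submatrix_equiv_self, Matrix.det_kronecker]

end place

variable {p : ℕ}

/-- Functions with values in the two small factors at the two ends. -/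
def Good (g : ℝ → Mat p (p + 1)) : Prop :=
  (∃ A : Matrix (Fin p) (Fin p) ℂ, g 0 = A ⊗ₖ (1 : Matrix (Fin (p + 1)) (Fin (p + 1)) ℂ)) ∧
    ∃ B : Matrix (Fin (p + 1)) (Fin (p + 1)) ℂ, g 1 = (1 : Matrix (Fin p) (Fin p) ℂ) ⊗ₖ B

/-- The indicator of `(-∞, x]`. -/
def indLe (p : ℕ) (x : ℝ) : ℝ → Mat p (p + 1) := fun y => if y ≤ x then 1 else 0

/-- The indicator of `(x, ∞)`. -/
def indGt (p : ℕ) (x : ℝ) : ℝ → Mat p (p + 1) := fun y => if x < y then 1 else 0

/-- The first factor away from the upper end. -/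
def lowF (η : ℝ) (E : Matrix (Fin p) (Fin p) ℂ) : ℝ → Mat p (p + 1) :=
  fun y => if y ≤ 1 - η then E ⊗ₖ 1 else 0

/-- The second factor away from the lower end. -/
def highF (η : ℝ) (E : Matrix (Fin (p + 1)) (Fin (p + 1)) ℂ) : ℝ → Mat p (p + 1) :=
  fun y => if η ≤ y then (1 : Matrix (Fin p) (Fin p) ℂ) ⊗ₖ E else 0

theorem good_scalar (g : ℝ → Mat p (p + 1)) (h : ∀ y, g y = 1 ∨ g y = 0) : Good g := by
  constructor
  · rcases h 0 with h | h
    · exact ⟨1, by rw [h, Matrix.one_kronecker_one]⟩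
    · exact ⟨0, by rw [h, Matrix.zero_kronecker]⟩
  · rcases h 1 with h | h
    · exact ⟨1, by rw [h, Matrix.one_kronecker_one]⟩
    · exact ⟨0, by rw [h, Matrix.kronecker_zero]⟩

theorem good_indLe (p : ℕ) (x : ℝ) : Good (indLe p x) :=
  good_scalar _ fun y => by unfold indLe; split_ifs <;> simp

theorem good_indGt (p : ℕ) (x : ℝ) : Good (indGt p x) :=
  good_scalar _ fun y => by unfold indGt; split_ifs <;> simp

theorem good_lowF {η : ℝ} (hη : 0 < η) (hη1 : η < 1) (E : Matrix (Fin p) (Fin p) ℂ) :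
    Good (lowF η E) :=
  ⟨⟨E, if_pos (by linarith)⟩, 0, by simp [lowF, hη]⟩

theorem good_highF {η : ℝ} (hη : 0 < η) (hη1 : η < 1)
    (E : Matrix (Fin (p + 1)) (Fin (p + 1)) ℂ) : Good (highF η E) :=
  ⟨⟨0, by simp [highF, hη]⟩, E, if_pos hη1.le⟩

variable {n : Type*} [Fintype n]

/-- Banded intertwiners between two representations. -/
structure IntR (ρ' ρ : (ℝ → Mat p (p + 1)) → Matrix n n ℂ) (η δ : ℝ) (X : Matrix n n ℂ) :
    Prop where
  up : ∀ x, ρ' (indGt p (x + δ)) * X * ρ (indLe p x) = 0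
  down : ∀ x, ρ' (indLe p x) * X * ρ (indGt p (x + δ)) = 0
  pinv : ∀ E, ρ' (lowF η E) * X * ρ (lowF η 1) = ρ' (lowF η 1) * X * ρ (lowF η E)
  qinv : ∀ E, ρ' (highF η E) * X * ρ (highF η 1) = ρ' (highF η 1) * X * ρ (highF η E)

namespace IntR

variable {ρ' ρ : (ℝ → Mat p (p + 1)) → Matrix n n ℂ} {η δ : ℝ} {X : Matrix n n ℂ}

theorem congr (h : IntR ρ' ρ η δ X) (hη : 0 < η) (hη1 : η < 1)
    {σ' σ : (ℝ → Mat p (p + 1)) → Matrix n n ℂ} (h' : ∀ g, Good g → σ' g = ρ' g)
    (h₀ : ∀ g, Good g → σ g = ρ g) : IntR σ' σ η δ X where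
  up x := by rw [h' _ (good_indGt p _), h₀ _ (good_indLe p _)]; exact h.up x
  down x := by rw [h' _ (good_indLe p _), h₀ _ (good_indGt p _)]; exact h.down x
  pinv E := by
    rw [h' _ (good_lowF hη hη1 E), h₀ _ (good_lowF hη hη1 1), h' _ (good_lowF hη hη1 1),
      h₀ _ (good_lowF hη hη1 E)]
    exact h.pinv E
  qinv E := by
    rw [h' _ (good_highF hη hη1 E), h₀ _ (good_highF hη hη1 1), h' _ (good_highF hη hη1 1),
      h₀ _ (good_highF hη hη1 E)]
    exact h.qinv E

/-- Composition with an exact intertwiner on the left. -/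
theorem exact_mul (h : IntR ρ' ρ η δ X) (hη : 0 < η) (hη1 : η < 1) {V : Matrix n n ℂ}
    {σ' : (ℝ → Mat p (p + 1)) → Matrix n n ℂ} (hV : ∀ g, Good g → σ' g * V = V * ρ' g) :
    IntR σ' ρ η δ (V * X) := by
  have key : ∀ g g', Good g → σ' g * (V * X) * ρ g' = V * (ρ' g * X * ρ g') := fun g g' hg => by
    rw [← mul_assoc (σ' g), hV g hg]; simp only [mul_assoc]
  constructor
  · intro x; rw [key _ _ (good_indGt p _), h.up, mul_zero]
  · intro x; rw [key _ _ (good_indLe p _), h.down, mul_zero]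
  · intro E; rw [key _ _ (good_lowF hη hη1 E), key _ _ (good_lowF hη hη1 1), h.pinv]
  · intro E; rw [key _ _ (good_highF hη hη1 E), key _ _ (good_highF hη hη1 1), h.qinv]

/-- Composition with an exact intertwiner on the right. -/
theorem mul_exact (h : IntR ρ' ρ η δ X) (hη : 0 < η) (hη1 : η < 1) {V : Matrix n n ℂ}
    {σ : (ℝ → Mat p (p + 1)) → Matrix n n ℂ} (hV : ∀ g, Good g → ρ g * V = V * σ g) :
    IntR ρ' σ η δ (X * V) := by
  have key : ∀ g g', Good g' → ρ' g * (X * V) * σ g' = ρ' g * X * ρ g' * V := fun g g' hg => by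
    simp only [mul_assoc, hV g' hg]
  constructor
  · intro x; rw [key _ _ (good_indLe p _), h.up, zero_mul]
  · intro x; rw [key _ _ (good_indGt p _), h.down, zero_mul]
  · intro E; rw [key _ _ (good_lowF hη hη1 1), key _ _ (good_lowF hη hη1 E), h.pinv]
  · intro E; rw [key _ _ (good_highF hη hη1 1), key _ _ (good_highF hη hη1 E), h.qinv]

/-- Placing on a tensor factor. -/
theorem place (h : IntR ρ' ρ η δ X) {N Y : Type*} [Fintype N] [Fintype Y] [DecidableEq Y]
    (e : N ≃ n × Y) :
    IntR (fun g => pl e (ρ' g)) (fun g => pl e (ρ g)) η δ (pl e X) where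
  up x := by simp only [← pl_mul, h.up, pl_zero]
  down x := by simp only [← pl_mul, h.down, pl_zero]
  pinv E := by simp only [← pl_mul, h.pinv]
  qinv E := by simp only [← pl_mul, h.qinv]

end IntR

section frame

variable {J : Type*} [DecidableEq J]

/-- The representation of a frame. -/
def fr (e : n ≃ J × In p) (a : J → ℝ) (g : ℝ → Mat p (p + 1)) : Matrix n n ℂ :=
  (dg g a).submatrix e e

omit [Fintype n] in
/-- The frame on a tensor factor. -/
theorem pl_fr {N Y : Type*} [DecidableEq Y] (E : N ≃ n × Y) (e : n ≃ J × In p) (a : J → ℝ)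
    (g : ℝ → Mat p (p + 1)) :
    pl E (fr e a g) = fr
      ((E.trans (e.prodCongr (Equiv.refl Y))).trans
        { toFun := fun x => ((x.1.1, x.2), x.1.2)
          invFun := fun x => ((x.1.1, x.2), x.1.2)
          left_inv := fun _ => rfl
          right_inv := fun _ => rfl }) (fun j => a j.1) g := by
  ext x y
  simp only [pl, fr, dg, Matrix.submatrix_apply, Matrix.kroneckerMap_apply, Matrix.one_apply,
    Equiv.trans_apply, Equiv.coe_fn_mk, Equiv.prodCongr_apply, Prod.map_fst, Prod.map_snd,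
    Equiv.refl_apply, Prod.mk.injEq, ite_and]
  split_ifs <;> simp

variable [Fintype J]

omit [Fintype n] in
theorem sandwich (g h : ℝ → Mat p (p + 1)) (a' a : J → ℝ) (X : Matrix (J × In p) (J × In p) ℂ)
    (i j : J) (r s : In p) :
    (dg g a' * X * dg h a) (i, r) (j, s) =
      (g (a' i) * (Matrix.of fun r s => X (i, r) (j, s)) * h (a j)) r s := by
  simp [Matrix.mul_apply, Fintype.sum_prod_type, dg, ite_mul, mul_ite, Finset.sum_mul,
    Finset.sum_ite_irrel, Finset.sum_ite_eq, Finset.sum_ite_eq']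

omit [Fintype n] in
theorem ampP_apply (E : Matrix (Fin p) (Fin p) ℂ) (X : Matrix (J × In p) (J × In p) ℂ)
    (i j : J) (r s : In p) :
    (ampP (J := J) E * X) (i, r) (j, s) =
      ((E ⊗ₖ (1 : Matrix (Fin (p + 1)) (Fin (p + 1)) ℂ)) *
        Matrix.of fun r s => X (i, r) (j, s)) r s ∧
    (X * ampP (J := J) E) (i, r) (j, s) =
      ((Matrix.of fun r s => X (i, r) (j, s)) *
        (E ⊗ₖ (1 : Matrix (Fin (p + 1)) (Fin (p + 1)) ℂ))) r s := by
  constructor <;>
    simp [Matrix.mul_apply, Fintype.sum_prod_type, ampP, Matrix.one_apply, Finset.sum_ite_irrel]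

omit [Fintype n] in
theorem ampQ_apply (E : Matrix (Fin (p + 1)) (Fin (p + 1)) ℂ)
    (X : Matrix (J × In p) (J × In p) ℂ) (i j : J) (r s : In p) :
    (ampQ (J := J) E * X) (i, r) (j, s) =
      (((1 : Matrix (Fin p) (Fin p) ℂ) ⊗ₖ E) * Matrix.of fun r s => X (i, r) (j, s)) r s ∧
    (X * ampQ (J := J) E) (i, r) (j, s) =
      ((Matrix.of fun r s => X (i, r) (j, s)) * ((1 : Matrix (Fin p) (Fin p) ℂ) ⊗ₖ E)) r s := by
  constructor <;>
    simp [Matrix.mul_apply, Fintype.sum_prod_type, ampQ, Matrix.one_apply, Finset.sum_ite_irrel]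

omit [Fintype n] in
/-- The intertwiners between frames are the banded ones. -/
theorem iband_iff (a' a : J → ℝ) (η δ : ℝ) (X : Matrix (J × In p) (J × In p) ℂ) :
    IBand a' a η δ X ↔ IntR (fun g => dg g a') (fun g => dg g a) η δ X := by
  constructor
  · intro h
    refine ⟨fun x => ?_, fun x => ?_, fun E => ?_, fun E => ?_⟩
    · ext ⟨i, r⟩ ⟨j, s⟩
      rw [sandwich, indGt, indLe]
      split_ifs with h1 h2 <;> try simp
      exact h.band (i, r) (j, s) (lt_of_lt_of_le (by linarith) (le_abs_self _))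
    · ext ⟨i, r⟩ ⟨j, s⟩
      rw [sandwich, indLe, indGt]
      split_ifs with h1 h2 <;> try simp
      exact h.band (i, r) (j, s) (lt_of_lt_of_le (by linarith) (neg_le_abs _))
    · ext ⟨i, r⟩ ⟨j, s⟩
      rw [sandwich, sandwich]
      unfold lowF
      split_ifs with h1 h2 <;> try simp
      have := h.pinv E (i, r) (j, s) h1 h2
      rw [(ampP_apply E X i j r s).1, (ampP_apply E X i j r s).2] at this
      simpa [Matrix.one_kronecker_one] using this
    · ext ⟨i, r⟩ ⟨j, s⟩
      rw [sandwich, sandwich]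
      unfold highF
      split_ifs with h1 h2 <;> try simp
      have := h.qinv E (i, r) (j, s) h1 h2
      rw [(ampQ_apply E X i j r s).1, (ampQ_apply E X i j r s).2] at this
      simpa [Matrix.one_kronecker_one] using this
  · intro h
    refine ⟨fun x y hxy => ?_, fun E x y hx hy => ?_, fun E x y hx hy => ?_⟩
    · obtain ⟨i, r⟩ := x
      obtain ⟨j, s⟩ := y
      rcases lt_abs.1 hxy with h1 | h1
      · have e := congrFun (congrFun (h.up (a j)) (i, r)) (j, s)
        rwa [sandwich, indGt, indLe, if_pos (show a j + δ < a' i by linarith), if_pos le_rfl,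
          one_mul, mul_one, Matrix.zero_apply] at e
      · have e := congrFun (congrFun (h.down (a' i)) (i, r)) (j, s)
        rwa [sandwich, indGt, indLe, if_pos (show a' i + δ < a j by linarith), if_pos le_rfl,
          one_mul, mul_one, Matrix.zero_apply] at e
    · obtain ⟨i, r⟩ := x
      obtain ⟨j, s⟩ := y
      have e := congrFun (congrFun (h.pinv E) (i, r)) (j, s)
      rw [sandwich, sandwich] at e
      simpa [lowF, if_pos hx, if_pos hy, (ampP_apply E X i j r s).1, (ampP_apply E X i j r s).2,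
        Matrix.one_kronecker_one] using e
    · obtain ⟨i, r⟩ := x
      obtain ⟨j, s⟩ := y
      have e := congrFun (congrFun (h.qinv E) (i, r)) (j, s)
      rw [sandwich, sandwich] at e
      simpa [highF, if_pos hx, if_pos hy, (ampQ_apply E X i j r s).1, (ampQ_apply E X i j r s).2,
        Matrix.one_kronecker_one] using e

/-- The intertwiners between frames, through the coordinates. -/
theorem intR_fr_iff (e' e : n ≃ J × In p) (a' a : J → ℝ) (η δ : ℝ) (X : Matrix n n ℂ) :
    IntR (fr e' a') (fr e a) η δ X ↔ IBand a' a η δ (X.submatrix e'.symm e.symm) := by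
  have key : ∀ g h : ℝ → Mat p (p + 1), (fr e' a' g * X * fr e a h).submatrix e'.symm e.symm =
      dg g a' * X.submatrix e'.symm e.symm * dg h a := fun g h => by
    rw [← Matrix.submatrix_mul_equiv _ _ _ e.symm, ← Matrix.submatrix_mul_equiv _ _ _ e'.symm]
    simp [fr, Matrix.submatrix_submatrix]
  have inj : Function.Injective fun A : Matrix n n ℂ => A.submatrix e'.symm e.symm := by
    intro A B hAB
    ext x y
    simpa using congrFun (congrFun hAB (e' x)) (e y)
  rw [iband_iff]
  constructor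
  · intro h
    constructor
    · intro x; rw [← key, h.up]; rfl
    · intro x; rw [← key, h.down]; rfl
    · intro E; rw [← key, ← key, h.pinv]
    · intro E; rw [← key, ← key, h.qinv]
  · intro h
    constructor
    · intro x; apply inj; simp only [key]; exact h.up x
    · intro x; apply inj; simp only [key]; exact h.down x
    · intro E; apply inj; simp only [key]; exact h.pinv E
    · intro E; apply inj; simp only [key]; exact h.qinv E

omit [Fintype n] in
/-- Close labels. -/
theorem iband_one {a' a : J → ℝ} {η δ : ℝ} (hδ : 0 ≤ δ) (h : ∀ i, |a' i - a i| ≤ δ) :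
    IBand (p := p) a' a η δ 1 := by
  refine ⟨fun x y hxy => Matrix.one_apply_ne ?_, fun E x y _ _ => by rw [mul_one, one_mul],
    fun E x y _ _ => by rw [mul_one, one_mul]⟩
  rintro rfl
  exact absurd hxy (not_lt.2 (h x.1))

/-- The matching of two frames with close labels. -/
theorem intR_pm [DecidableEq n] (e' e : n ≃ J × In p) (a' a : J → ℝ) {η δ : ℝ} (hδ : 0 ≤ δ)
    (h : ∀ i, |a' i - a i| ≤ δ) : IntR (fr e' a') (fr e a) η δ (pm (e'.trans e.symm)) := by
  rw [intR_fr_iff]
  convert iband_one (p := p) hδ h using 1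
  ext x y
  simp [pm_apply, Matrix.one_apply]

omit [Fintype n] in
/-- Composition of banded intertwiners. -/
theorem iband_mul {a'' a' a : J → ℝ} {η η' δ δ' η'' : ℝ} (hδ : 0 ≤ δ) (hδ' : 0 ≤ δ')
    {X Y : Matrix (J × In p) (J × In p) ℂ} (hX : IBand a'' a' η δ X) (hY : IBand a' a η' δ' Y)
    (h1 : η + δ + δ' ≤ η'') (h2 : η' + δ + δ' ≤ η'') : IBand a'' a η'' (δ + δ') (X * Y) := by
  have sumb : ∀ i k : J, (Matrix.of fun r s => (X * Y) (i, r) (k, s)) =
      ∑ j : J, (Matrix.of fun r s => X (i, r) (j, s)) * Matrix.of fun r s => Y (j, r) (k, s) := by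
    intro i k
    ext r s
    simp [Matrix.sum_apply, Matrix.mul_apply, Fintype.sum_prod_type]
  refine ⟨fun x y hxy => ?_, fun E x y hx hy => ?_, fun E x y hx hy => ?_⟩
  · rw [Matrix.mul_apply]
    refine Finset.sum_eq_zero fun z _ => ?_
    by_cases hz : δ < |a'' x.1 - a' z.1|
    · rw [hX.band x z hz, zero_mul]
    · rw [hY.band z y ?_, mul_zero]
      by_contra hc
      have := abs_sub_le (a'' x.1) (a' z.1) (a y.1)
      linarith [not_lt.1 hz, not_lt.1 hc]
  · obtain ⟨i, r⟩ := x
    obtain ⟨k, s⟩ := y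
    rw [(ampP_apply E (X * Y) i k r s).1, (ampP_apply E (X * Y) i k r s).2, sumb, Finset.mul_sum,
      Finset.sum_mul]
    refine congrFun (congrFun (Finset.sum_congr rfl fun j _ => ?_) r) s
    by_cases hz : δ < |a'' i - a' j|
    · have : (Matrix.of fun r s => X (i, r) (j, s)) = 0 := by
        ext u v; exact hX.band (i, u) (j, v) hz
      simp [this]; rfl
    by_cases hz' : δ' < |a' j - a k|
    · have : (Matrix.of fun r s => Y (j, r) (k, s)) = 0 := by
        ext u v; exact hY.band (j, u) (k, v) hz'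
      simp [this]; rfl
    obtain ⟨a1, a2⟩ := abs_le.1 (not_lt.1 hz)
    obtain ⟨b1, b2⟩ := abs_le.1 (not_lt.1 hz')
    have eX : (E ⊗ₖ (1 : Matrix (Fin (p + 1)) (Fin (p + 1)) ℂ)) *
        (Matrix.of fun r s => X (i, r) (j, s)) =
        (Matrix.of fun r s => X (i, r) (j, s)) * (E ⊗ₖ 1) := by
      ext u v
      have := hX.pinv E (i, u) (j, v) (by simp only at hx ⊢; linarith)
        (by simp only at hx hy ⊢; linarith)
      rwa [(ampP_apply E X i j u v).1, (ampP_apply E X i j u v).2] at this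
    have eY : (E ⊗ₖ (1 : Matrix (Fin (p + 1)) (Fin (p + 1)) ℂ)) *
        (Matrix.of fun r s => Y (j, r) (k, s)) =
        (Matrix.of fun r s => Y (j, r) (k, s)) * (E ⊗ₖ 1) := by
      ext u v
      have := hY.pinv E (j, u) (k, v) (by simp only at hx hy ⊢; linarith)
        (by simp only at hy ⊢; linarith)
      rwa [(ampP_apply E Y j k u v).1, (ampP_apply E Y j k u v).2] at this
    rw [← mul_assoc, eX, mul_assoc, eY, mul_assoc]
  · obtain ⟨i, r⟩ := x
    obtain ⟨k, s⟩ := y
    rw [(ampQ_apply E (X * Y) i k r s).1, (ampQ_apply E (X * Y) i k r s).2, sumb, Finset.mul_sum,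
      Finset.sum_mul]
    refine congrFun (congrFun (Finset.sum_congr rfl fun j _ => ?_) r) s
    by_cases hz : δ < |a'' i - a' j|
    · have : (Matrix.of fun r s => X (i, r) (j, s)) = 0 := by
        ext u v; exact hX.band (i, u) (j, v) hz
      simp [this]; rfl
    by_cases hz' : δ' < |a' j - a k|
    · have : (Matrix.of fun r s => Y (j, r) (k, s)) = 0 := by
        ext u v; exact hY.band (j, u) (k, v) hz'
      simp [this]; rfl
    obtain ⟨a1, a2⟩ := abs_le.1 (not_lt.1 hz)
    obtain ⟨b1, b2⟩ := abs_le.1 (not_lt.1 hz')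
    have eX : ((1 : Matrix (Fin p) (Fin p) ℂ) ⊗ₖ E) *
        (Matrix.of fun r s => X (i, r) (j, s)) =
        (Matrix.of fun r s => X (i, r) (j, s)) * (1 ⊗ₖ E) := by
      ext u v
      have := hX.qinv E (i, u) (j, v) (by simp only at hx ⊢; linarith)
        (by simp only at hx hy ⊢; linarith)
      rwa [(ampQ_apply E X i j u v).1, (ampQ_apply E X i j u v).2] at this
    have eY : ((1 : Matrix (Fin p) (Fin p) ℂ) ⊗ₖ E) *
        (Matrix.of fun r s => Y (j, r) (k, s)) =
        (Matrix.of fun r s => Y (j, r) (k, s)) * (1 ⊗ₖ E) := by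
      ext u v
      have := hY.qinv E (j, u) (k, v) (by simp only at hx hy ⊢; linarith)
        (by simp only at hy ⊢; linarith)
      rwa [(ampQ_apply E Y j k u v).1, (ampQ_apply E Y j k u v).2] at this
    rw [← mul_assoc, eX, mul_assoc, eY, mul_assoc]

/-- Composition between frames. -/
theorem IntR.mul [DecidableEq n] {e'' e' e : n ≃ J × In p} {a'' a' a : J → ℝ}
    {η η' δ δ' η'' : ℝ} {X Y : Matrix n n ℂ} (hδ : 0 ≤ δ) (hδ' : 0 ≤ δ')
    (hX : IntR (fr e'' a'') (fr e' a') η δ X) (hY : IntR (fr e' a') (fr e a) η' δ' Y)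
    (h1 : η + δ + δ' ≤ η'') (h2 : η' + δ + δ' ≤ η'') :
    IntR (fr e'' a'') (fr e a) η'' (δ + δ') (X * Y) := by
  rw [intR_fr_iff] at hX hY ⊢
  rw [← Matrix.submatrix_mul_equiv X Y _ e'.symm]
  exact iband_mul hδ hδ' hX hY h1 h2

end frame

end

end Vale.P101.ZS.Fl
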