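import Vale.Agent.P101.ZStab.Flip.Frame

/-!
# P101 `Z`-stability: the four sides of the square (helper file of `ZStab/Flip`)

Coordinates `(a, b, c, d)` of `(M_P ⊗ M_Q) ⊗ (M_P ⊗ M_Q)`; each side of the square has a small
matrix algebra, the corner values are permutation matrices and the two corners of one side differ by
a banded intertwiner.
-/

open scoped Kronecker Matrix.Norms.L2Operator
open Matrix

namespace Vale.P101.ZS.Fl

noncomputable section

/-- A permutation acting on one factor. -/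
def cj {n m X : Type*} (e : n ≃ m × X) (π : m ≃ m) : n ≃ n :=
  (e.trans (π.prodCongr (Equiv.refl X))).trans e.symm

theorem cj_symm {n m X : Type*} (e : n ≃ m × X) (π : m ≃ m) : (cj e π).symm = cj e π.symm := rfl

theorem pl_pm' {n m X : Type*} [DecidableEq n] [DecidableEq m] [DecidableEq X] (e : n ≃ m × X)
    (π : m ≃ m) : pl e (pm π) = pm (cj e π) :=
  pl_pm e π

/-- A frame on one factor. -/
def ext' {N n X J I : Type*} (E : N ≃ n × X) (e : n ≃ J × I) : N ≃ (J × X) × I :=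
  (E.trans (e.prodCongr (Equiv.refl X))).trans
    { toFun := fun x => ((x.1.1, x.2), x.1.2)
      invFun := fun x => ((x.1.1, x.2), x.1.2)
      left_inv := fun _ => rfl
      right_inv := fun _ => rfl }

theorem pl_fr' {p : ℕ} {N n X J : Type*} [DecidableEq J] [DecidableEq X] (E : N ≃ n × X)
    (e : n ≃ J × In p) (a : J → ℝ) (g : ℝ → Mat p (p + 1)) :
    pl E (fr e a g) = fr (ext' E e) (fun j => a j.1) g :=
  pl_fr E e a g

variable (p l : ℕ)

/-- `P`. -/
abbrev IP := Fin (nextP p l)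
/-- `Q`. -/
abbrev IQ := Fin (nextP p l + 1)
/-- The side `s = 0`: `(a, (c, d))`. -/
abbrev NL := IP p l × Out p l
/-- The side `s = 1`: `(b, (c, d))`. -/
abbrev NR := IQ p l × Out p l
/-- The side `t = 1`: `((a, b), d)`. -/
abbrev NT := Out p l × IQ p l
/-- The side `t = 0`: `((a, b), c)`. -/
abbrev NB := Out p l × IP p l
/-- The whole fibre: `((a, b), (c, d))`. -/
abbrev NX := Out p l × Out p l

/-- `(c, d)` and `a`. -/
def lcd : NL p l ≃ Out p l × IP p l :=
  ⟨fun x => (x.2, x.1), fun x => (x.2, x.1), fun _ => rfl, fun _ => rfl⟩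
/-- `(a, d)` and `c`. -/
def lad : NL p l ≃ Out p l × IP p l :=
  ⟨fun x => ((x.1, x.2.2), x.2.1), fun x => (x.1.1, (x.2, x.1.2)), fun _ => rfl, fun _ => rfl⟩
/-- `(c, d)` and `b`. -/
def rcd : NR p l ≃ Out p l × IQ p l :=
  ⟨fun x => (x.2, x.1), fun x => (x.2, x.1), fun _ => rfl, fun _ => rfl⟩
/-- `(c, b)` and `d`. -/
def rcb : NR p l ≃ Out p l × IQ p l :=
  ⟨fun x => ((x.2.1, x.1), x.2.2), fun x => (x.1.2, (x.1.1, x.2)), fun _ => rfl, fun _ => rfl⟩
/-- `(a, b)` and `d`. -/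
def tab : NT p l ≃ Out p l × IQ p l := Equiv.refl _
/-- `(a, d)` and `b`. -/
def tad : NT p l ≃ Out p l × IQ p l :=
  ⟨fun x => ((x.1.1, x.2), x.1.2), fun x => ((x.1.1, x.2), x.1.2), fun _ => rfl, fun _ => rfl⟩
/-- `(a, b)` and `c`. -/
def bab : NB p l ≃ Out p l × IP p l := Equiv.refl _
/-- `(c, b)` and `a`. -/
def bcb : NB p l ≃ Out p l × IP p l :=
  ⟨fun x => ((x.2, x.1.2), x.1.1), fun x => ((x.2, x.1.2), x.1.1), fun _ => rfl, fun _ => rfl⟩
/-- The side `s = 0` inside the fibre. -/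
def iL : NX p l ≃ NL p l × IQ p l :=
  ⟨fun x => ((x.1.1, x.2), x.1.2), fun x => ((x.1.1, x.2), x.1.2), fun _ => rfl, fun _ => rfl⟩
/-- The side `s = 1` inside the fibre. -/
def iR : NX p l ≃ NR p l × IP p l :=
  ⟨fun x => ((x.1.2, x.2), x.1.1), fun x => ((x.2, x.1.1), x.1.2), fun _ => rfl, fun _ => rfl⟩
/-- The side `t = 1` inside the fibre. -/
def iT : NX p l ≃ NT p l × IP p l :=
  ⟨fun x => ((x.1, x.2.2), x.2.1), fun x => (x.1.1, (x.2, x.1.2)), fun _ => rfl, fun _ => rfl⟩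
/-- The side `t = 0` inside the fibre. -/
def iB : NX p l ≃ NB p l × IQ p l :=
  ⟨fun x => ((x.1, x.2.1), x.2.2), fun x => (x.1.1, (x.1.2, x.2)), fun _ => rfl, fun _ => rfl⟩
/-- The first copy. -/
def xab : NX p l ≃ Out p l × Out p l := Equiv.refl _
/-- The second copy. -/
def xcd : NX p l ≃ Out p l × Out p l := Equiv.prodComm _ _

variable {p l : ℕ}

/-- The functions with small fibres at the ends have the small fibres as factors. -/
structure SmallEnds (p l : ℕ) (hp : 0 < p) : Prop where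
  zero : ∀ g, Good (p := p) g → rep₀ p l g = small₀ p l g ⊗ₖ
    (1 : Matrix (Fin (nextP p l + 1)) (Fin (nextP p l + 1)) ℂ)
  one : ∀ g, Good (p := p) g →
    rep₁ p l g = (1 : Matrix (Fin (nextP p l)) (Fin (nextP p l)) ℂ) ⊗ₖ small₁ p l hp g

theorem smallEnds_of (h : StepMapStmt) (p l : ℕ) (hp : 0 < p) : SmallEnds p l hp :=
  ⟨fun g hg => h.1 p l g hg.1, fun g hg => h.2.1 p l hp g hg.2⟩

section congr

variable {hp : 0 < p} (h : SmallEnds p l hp) {g : ℝ → Mat p (p + 1)} (hg : Good g)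
include h hg

theorem left_congr : pl (lcd p l) (rep₁ p l g) = pl (lad p l) (rep₁ p l g) := by
  ext x y
  simp [h.one g hg, pl, lcd, lad, Matrix.one_apply, Prod.ext_iff, ite_and]
  all_goals split_ifs <;> simp_all

theorem right_congr : pl (rcd p l) (rep₀ p l g) = pl (rcb p l) (rep₀ p l g) := by
  ext x y
  simp [h.zero g hg, pl, rcd, rcb, Matrix.one_apply, Prod.ext_iff, ite_and]
  all_goals split_ifs <;> simp_all

theorem top_congr : pl (tab p l) (rep₀ p l g) = pl (tad p l) (rep₀ p l g) := by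
  ext x y
  simp [h.zero g hg, pl, tab, tad, Matrix.one_apply, Prod.ext_iff, ite_and]
  all_goals split_ifs <;> simp_all

theorem bottom_congr : pl (bab p l) (rep₁ p l g) = pl (bcb p l) (rep₁ p l g) := by
  ext x y
  simp [h.one g hg, pl, bab, bcb, Matrix.one_apply, Prod.ext_iff, ite_and]
  all_goals split_ifs <;> simp_all

theorem iL_start : pl (iL p l) (pl (lad p l) (rep₀ p l g)) = pl (xab p l) (rep₀ p l g) := by
  ext x y
  simp [h.zero g hg, pl, lad, iL, xab, Matrix.one_apply, Prod.ext_iff, ite_and]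
  all_goals split_ifs <;> simp_all

theorem iR_start : pl (iR p l) (pl (rcb p l) (rep₁ p l g)) = pl (xab p l) (rep₁ p l g) := by
  ext x y
  simp [h.one g hg, pl, rcb, iR, xab, Matrix.one_apply, Prod.ext_iff, ite_and]
  all_goals split_ifs <;> simp_all

theorem iT_finish : pl (iT p l) (pl (tad p l) (rep₁ p l g)) = pl (xcd p l) (rep₁ p l g) := by
  ext x y
  simp [h.one g hg, pl, tad, iT, xcd, Matrix.one_apply, Prod.ext_iff, ite_and]
  all_goals split_ifs <;> simp_all

theorem iB_finish : pl (iB p l) (pl (bcb p l) (rep₀ p l g)) = pl (xcd p l) (rep₀ p l g) := by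
  ext x y
  simp [h.zero g hg, pl, bcb, iB, xcd, Matrix.one_apply, Prod.ext_iff, ite_and]
  all_goals split_ifs <;> simp_all

theorem left_comm (A : Matrix (Out p l) (Out p l) ℂ) :
    Commute (pl (lad p l) (rep₀ p l g)) (pl (lcd p l) A) := by
  have e1 : pl (lad p l) (rep₀ p l g) = (small₀ p l g ⊗ₖ (1 : Matrix (Out p l) (Out p l) ℂ)) := by
    ext x y
    simp [h.zero g hg, pl, lad, Matrix.one_apply, Prod.ext_iff, ite_and]
    all_goals split_ifs <;> simp_all
  have e2 : pl (lcd p l) A = (1 : Matrix (IP p l) (IP p l) ℂ) ⊗ₖ A := by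
    ext x y
    simp [pl, lcd, Matrix.one_apply]
  rw [e1, e2, Commute, SemiconjBy, ← Matrix.mul_kronecker_mul, ← Matrix.mul_kronecker_mul]
  simp

theorem right_comm (A : Matrix (Out p l) (Out p l) ℂ) :
    Commute (pl (rcb p l) (rep₁ p l g)) (pl (rcd p l) A) := by
  have e1 : pl (rcb p l) (rep₁ p l g) =
      (small₁ p l hp g ⊗ₖ (1 : Matrix (Out p l) (Out p l) ℂ)) := by
    ext x y
    simp [h.one g hg, pl, rcb, Matrix.one_apply, Prod.ext_iff, ite_and]
    all_goals split_ifs <;> simp_all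
  have e2 : pl (rcd p l) A = (1 : Matrix (IQ p l) (IQ p l) ℂ) ⊗ₖ A := by
    ext x y
    simp [pl, rcd, Matrix.one_apply]
  rw [e1, e2, Commute, SemiconjBy, ← Matrix.mul_kronecker_mul, ← Matrix.mul_kronecker_mul]
  simp

theorem top_comm (A : Matrix (Out p l) (Out p l) ℂ) :
    Commute (pl (tad p l) (rep₁ p l g)) (pl (tab p l) A) := by
  have e1 : pl (tad p l) (rep₁ p l g) =
      ((1 : Matrix (Out p l) (Out p l) ℂ) ⊗ₖ small₁ p l hp g) := by
    ext x y
    simp [h.one g hg, pl, tad, Matrix.one_apply, Prod.ext_iff, ite_and]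
    all_goals split_ifs <;> simp_all
  have e2 : pl (tab p l) A = A ⊗ₖ (1 : Matrix (IQ p l) (IQ p l) ℂ) := rfl
  rw [e1, e2, Commute, SemiconjBy, ← Matrix.mul_kronecker_mul, ← Matrix.mul_kronecker_mul]
  simp

theorem bottom_comm (A : Matrix (Out p l) (Out p l) ℂ) :
    Commute (pl (bcb p l) (rep₀ p l g)) (pl (bab p l) A) := by
  have e1 : pl (bcb p l) (rep₀ p l g) =
      ((1 : Matrix (Out p l) (Out p l) ℂ) ⊗ₖ small₀ p l g) := by
    ext x y
    simp [h.zero g hg, pl, bcb, Matrix.one_apply, Prod.ext_iff, ite_and]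
    all_goals split_ifs <;> simp_all
  have e2 : pl (bab p l) A = A ⊗ₖ (1 : Matrix (IP p l) (IP p l) ℂ) := rfl
  rw [e1, e2, Commute, SemiconjBy, ← Matrix.mul_kronecker_mul, ← Matrix.mul_kronecker_mul]
  simp

end congr

theorem iL_finish (g : ℝ → Mat p (p + 1)) :
    pl (iL p l) (pl (lcd p l) (rep₀ p l g)) = pl (xcd p l) (rep₀ p l g) := by
  ext x y
  simp [pl, lcd, iL, xcd, Matrix.one_apply, Prod.ext_iff, ite_and]
  all_goals split_ifs <;> simp_all

theorem iR_finish (g : ℝ → Mat p (p + 1)) :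
    pl (iR p l) (pl (rcd p l) (rep₀ p l g)) = pl (xcd p l) (rep₀ p l g) := by
  ext x y
  simp [pl, rcd, iR, xcd, Matrix.one_apply, Prod.ext_iff, ite_and]
  all_goals split_ifs <;> simp_all

theorem iT_start (g : ℝ → Mat p (p + 1)) :
    pl (iT p l) (pl (tab p l) (rep₀ p l g)) = pl (xab p l) (rep₀ p l g) := by
  ext x y
  simp [pl, tab, iT, xab, Matrix.one_apply, Prod.ext_iff, ite_and]
  all_goals split_ifs <;> simp_all

theorem iB_start (g : ℝ → Mat p (p + 1)) :
    pl (iB p l) (pl (bab p l) (rep₀ p l g)) = pl (xab p l) (rep₀ p l g) := by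
  ext x y
  simp [pl, bab, iB, xab, Matrix.one_apply, Prod.ext_iff, ite_and]
  all_goals split_ifs <;> simp_all

variable (σ : Pos₀ p l ≃ Pos₁ p l)

/-- The frame at `1` read on the list at `0`. -/
def eB : Out p l ≃ Pos₀ p l × In p := (e₁ p l).trans (σ.symm.prodCongr (Equiv.refl _))

/-- The permutation `tau`. -/
def te : Out p l ≃ Out p l := (eB σ).trans (e₀ p l).symm

theorem tau_eq : tau σ = pm (te σ) := by
  ext x y
  simp only [tau, pm_apply]
  refine if_congr ⟨fun h => ?_, fun h => ?_⟩ rfl rfl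
  · subst h; simp [te, eB]
  · subst h; simp [te, eB]

theorem rep₁_eq (g : ℝ → Mat p (p + 1)) :
    rep₁ p l g = fr (eB σ) (fun i => lab₁ p l (σ i)) g := by
  ext x y
  simp [rep₁, fr, dg, eB]

variable {σ} {δ : ℝ} (hδ : 0 ≤ δ) (hσ : ∀ i, |lab₀ p l i - lab₁ p l (σ i)| ≤ δ)
include hδ hσ

theorem intR_tau {η : ℝ} : IntR (rep₁ p l) (rep₀ p l) η δ (pm (te σ)) := by
  have := intR_pm (p := p) (eB σ) (e₀ p l) (fun i => lab₁ p l (σ i)) (lab₀ p l) (η := η) hδ
    fun i => by rw [abs_sub_comm]; exact hσ i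
  rw [show rep₁ p l = fr (eB σ) (fun i => lab₁ p l (σ i)) from funext (rep₁_eq σ)]
  exact this

theorem intR_tau' {η : ℝ} : IntR (rep₀ p l) (rep₁ p l) η δ (pm (te σ).symm) := by
  have := intR_pm (p := p) (e₀ p l) (eB σ) (lab₀ p l) (fun i => lab₁ p l (σ i)) (η := η) hδ hσ
  rw [show rep₁ p l = fr (eB σ) (fun i => lab₁ p l (σ i)) from funext (rep₁_eq σ)]
  exact this

variable {N X : Type*} [Fintype N] [DecidableEq N] [Fintype X] [DecidableEq X]

/-- `0 → 1` on one factor followed by `1 → 0` on another one. -/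
theorem chain₁₀ (A B : N ≃ Out p l × X) {η η'' : ℝ} (hη : 0 < η) (hη1 : η < 1)
    (hη'' : η + δ + δ ≤ η'')
    (hAB : ∀ g, Good g → pl B (rep₁ p l g) = pl A (rep₁ p l g)) :
    IntR (fun g => pl B (rep₀ p l g)) (fun g => pl A (rep₀ p l g)) η'' (δ + δ)
      (pm (cj B (te σ).symm) * pm (cj A (te σ))) := by
  have h1 := (intR_tau' hδ hσ (η := η)).place B
  have h2 := ((intR_tau hδ hσ (η := η)).place A).congr hη hη1 (σ' := fun g => pl B (rep₁ p l g))
    hAB (fun _ _ => rfl)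
  rw [pl_pm'] at h1 h2
  have f : ∀ E : N ≃ Out p l × X, (fun g => pl E (rep₀ p l g)) =
      fr (ext' E (e₀ p l)) (fun j => lab₀ p l j.1) := fun E =>
    funext fun g => pl_fr' E (e₀ p l) (lab₀ p l) g
  have f1 : (fun g => pl B (rep₁ p l g)) =
      fr (ext' B (eB σ)) (fun j => lab₁ p l (σ j.1)) :=
    funext fun g => by rw [rep₁_eq σ, pl_fr']
  rw [f, f1] at h1
  rw [f, f1] at h2
  rw [f, f]
  exact IntR.mul hδ hδ h1 h2 hη'' hη''

/-- `1 → 0` on one factor followed by `0 → 1` on another one. -/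
theorem chain₀₁ (A B : N ≃ Out p l × X) {η η'' : ℝ} (hη : 0 < η) (hη1 : η < 1)
    (hη'' : η + δ + δ ≤ η'')
    (hAB : ∀ g, Good g → pl B (rep₀ p l g) = pl A (rep₀ p l g)) :
    IntR (fun g => pl A (rep₁ p l g)) (fun g => pl B (rep₁ p l g)) η'' (δ + δ)
      (pm (cj A (te σ)) * pm (cj B (te σ).symm)) := by
  have h1 := (intR_tau hδ hσ (η := η)).place A
  have h2 := ((intR_tau' hδ hσ (η := η)).place B).congr hη hη1 (σ' := fun g => pl A (rep₀ p l g))
    (fun g hg => (hAB g hg).symm) (fun _ _ => rfl)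
  rw [pl_pm'] at h1 h2
  have f : (fun g => pl A (rep₀ p l g)) = fr (ext' A (e₀ p l)) (fun j => lab₀ p l j.1) :=
    funext fun g => pl_fr' A (e₀ p l) (lab₀ p l) g
  have f1 : ∀ E : N ≃ Out p l × X, (fun g => pl E (rep₁ p l g)) =
      fr (ext' E (eB σ)) (fun j => lab₁ p l (σ j.1)) := fun E =>
    funext fun g => by rw [rep₁_eq σ, pl_fr']
  rw [f, f1] at h1
  rw [f, f1] at h2
  rw [f1, f1]
  exact IntR.mul hδ hδ h1 h2 hη'' hη''

omit hδ hσ

/-- Changing the factor is exact. -/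
theorem swap_pl (A B : N ≃ Out p l × X) (M : Matrix (Out p l) (Out p l) ℂ) :
    pl B M * pm (B.trans A.symm) = pm (B.trans A.symm) * pl A M :=
  sub_pm _ B A

variable {hp : 0 < p} (h : SmallEnds p l hp) (σ)

/-- Values of `X` at the corners of the side `s = 0`, relative to the first one. -/
def dL : Matrix (NL p l) (NL p l) ℂ :=
  pm ((lad p l).trans (lcd p l).symm) *
    ((pm (cj (lcd p l) (te σ).symm) * pm (cj (lad p l) (te σ))) * pm (cj (lcd p l) (te σ)))

/-- The change along the side `s = 1`. -/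
def dR : Matrix (NR p l) (NR p l) ℂ :=
  ((pm (cj (rcb p l) (te σ)) * pm (cj (rcd p l) (te σ).symm)) *
    pm ((rcd p l).trans (rcb p l).symm)) * pm (cj (rcd p l) (te σ))

/-- The change along the side `t = 1`. -/
def dT : Matrix (NT p l) (NT p l) ℂ :=
  ((pm (cj (tad p l) (te σ).symm) * pm (cj (tab p l) (te σ).symm)) *
    pm ((tad p l).trans (tab p l).symm)) * pm (cj (tab p l) (te σ))

/-- The change along the side `t = 0`. -/
def dB : Matrix (NB p l) (NB p l) ℂ :=
  (pm ((bab p l).trans (bcb p l).symm) *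
    (pm (cj (bab p l) (te σ).symm) * pm (cj (bcb p l) (te σ).symm))) *
      pm (cj (bab p l) (te σ))

variable {σ}
include hδ hσ h

theorem intR_dL {η η'' : ℝ} (hη : 0 < η) (hη1 : η'' < 1) (hη'' : η + δ + δ ≤ η'') :
    IntR (fun g => pl (lad p l) (rep₀ p l g)) (fun g => pl (lad p l) (rep₀ p l g)) η'' (δ + δ)
      (dL σ) := by
  refine IntR.exact_mul (ρ' := fun g => pl (lcd p l) (rep₀ p l g)) ?_ (by linarith) hη1
    (fun g _ => swap_pl _ _ _)
  refine IntR.mul_exact (ρ := fun g => pl (lad p l) (rep₀ p l g)) ?_ (by linarith) hη1 fun g hg => ?_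
  · exact chain₁₀ hδ hσ _ _ hη (by linarith) hη'' fun g hg => left_congr h hg
  · rw [← pl_pm']
    exact left_comm h hg _

theorem intR_dR {η η'' : ℝ} (hη : 0 < η) (hη1 : η'' < 1) (hη'' : η + δ + δ ≤ η'') :
    IntR (fun g => pl (rcb p l) (rep₁ p l g)) (fun g => pl (rcb p l) (rep₁ p l g)) η'' (δ + δ)
      (dR σ) := by
  refine IntR.mul_exact (ρ := fun g => pl (rcb p l) (rep₁ p l g)) ?_ (by linarith) hη1 fun g hg => ?_
  · refine IntR.mul_exact (ρ := fun g => pl (rcd p l) (rep₁ p l g)) ?_ (by linarith) hη1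
      fun g _ => swap_pl _ _ _
    exact chain₀₁ hδ hσ _ _ hη (by linarith) hη'' fun g hg => right_congr h hg
  · rw [← pl_pm']
    exact right_comm h hg _

theorem intR_dT {η η'' : ℝ} (hη : 0 < η) (hη1 : η'' < 1) (hη'' : η + δ + δ ≤ η'') :
    IntR (fun g => pl (tab p l) (rep₀ p l g)) (fun g => pl (tab p l) (rep₀ p l g)) η'' (δ + δ)
      (dT σ) := by
  have h2 := (intR_tau hδ hσ (η := η)).place (tab p l)
  have h1 := ((intR_tau' hδ hσ (η := η)).place (tad p l)).congr hη (by linarith)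
    (σ' := fun g => pl (tab p l) (rep₀ p l g)) (fun g hg => top_congr h hg) (fun _ _ => rfl)
  rw [pl_pm'] at h1 h2
  have h3 : IntR (fun g => pl (tab p l) (rep₀ p l g)) (fun g => pl (tab p l) (rep₁ p l g)) η δ
      ((pm (cj (tad p l) (te σ).symm) * pm (cj (tab p l) (te σ).symm)) *
        pm ((tad p l).trans (tab p l).symm)) := by
    refine IntR.mul_exact (ρ := fun g => pl (tad p l) (rep₁ p l g)) ?_ hη (by linarith)
      fun g _ => swap_pl _ _ _
    refine h1.mul_exact hη (by linarith) fun g hg => ?_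
    rw [← pl_pm']
    exact top_comm h hg _
  have f : (fun g => pl (tab p l) (rep₀ p l g)) =
      fr (ext' (tab p l) (e₀ p l)) (fun j => lab₀ p l j.1) :=
    funext fun g => pl_fr' _ (e₀ p l) (lab₀ p l) g
  have f1 : (fun g => pl (tab p l) (rep₁ p l g)) =
      fr (ext' (tab p l) (eB σ)) (fun j => lab₁ p l (σ j.1)) :=
    funext fun g => by rw [rep₁_eq σ, pl_fr']
  rw [f, f1] at h3 h2
  rw [f]
  exact IntR.mul hδ hδ h3 h2 hη'' hη''

theorem intR_dB {η η'' : ℝ} (hη : 0 < η) (hη1 : η'' < 1) (hη'' : η + δ + δ ≤ η'') :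
    IntR (fun g => pl (bab p l) (rep₀ p l g)) (fun g => pl (bab p l) (rep₀ p l g)) η'' (δ + δ)
      (dB σ) := by
  have h2 := (intR_tau hδ hσ (η := η)).place (bab p l)
  have h1 := ((intR_tau' hδ hσ (η := η)).place (bcb p l)).congr hη (by linarith)
    (σ' := fun g => pl (bcb p l) (rep₀ p l g)) (fun _ _ => rfl)
    (σ := fun g => pl (bab p l) (rep₁ p l g)) (fun g hg => bottom_congr h hg)
  rw [pl_pm'] at h1 h2
  have h3 : IntR (fun g => pl (bab p l) (rep₀ p l g)) (fun g => pl (bab p l) (rep₁ p l g)) η δ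
      (pm ((bab p l).trans (bcb p l).symm) *
        (pm (cj (bab p l) (te σ).symm) * pm (cj (bcb p l) (te σ).symm))) := by
    refine IntR.exact_mul (ρ' := fun g => pl (bcb p l) (rep₀ p l g)) ?_ hη (by linarith)
      fun g _ => swap_pl _ _ _
    refine h1.exact_mul hη (by linarith) fun g hg => ?_
    rw [← pl_pm']
    exact bottom_comm h hg _
  have f : (fun g => pl (bab p l) (rep₀ p l g)) =
      fr (ext' (bab p l) (e₀ p l)) (fun j => lab₀ p l j.1) :=
    funext fun g => pl_fr' _ (e₀ p l) (lab₀ p l) g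
  have f1 : (fun g => pl (bab p l) (rep₁ p l g)) =
      fr (ext' (bab p l) (eB σ)) (fun j => lab₁ p l (σ j.1)) :=
    funext fun g => by rw [rep₁_eq σ, pl_fr']
  rw [f, f1] at h3 h2
  rw [f]
  exact IntR.mul hδ hδ h3 h2 hη'' hη''

end

end Vale.P101.ZS.Fl
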